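import Vale.Agent.P269.Defs

/-! Basic lemmas on `derive` and `splitSum`. -/

namespace Vale.Agent.P269

namespace Cohomology

variable {X : Cohomology}

/-- `T x` is a finite linear combination of parity preserving replacements. -/
def EvenOp (X : Cohomology) (T : X.Ins → (X.Ins → ℂ) → ℂ) : Prop :=
  ∀ x, ∃ (s : Finset X.Ins) (c : X.Ins → ℂ), (∀ f, T x f = ∑ y ∈ s, c y * f y) ∧
    ∀ y, c y ≠ 0 → Even (X.par y + X.par x)

theorem EvenOp.zero {T} (hT : EvenOp X T) (x : X.Ins) : T x (fun _ => 0) = 0 := by
  obtain ⟨s, c, h, -⟩ := hT x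
  simp [h]

theorem EvenOp.add {T} (hT : EvenOp X T) (x : X.Ins) (f g : X.Ins → ℂ) :
    T x (fun y => f y + g y) = T x f + T x g := by
  obtain ⟨s, c, h, -⟩ := hT x
  simp [h, mul_add, Finset.sum_add_distrib]

theorem EvenOp.smul {T} (hT : EvenOp X T) (x : X.Ins) (a : ℂ) (f : X.Ins → ℂ) :
    T x (fun y => a * f y) = a * T x f := by
  obtain ⟨s, c, h, -⟩ := hT x
  simp only [h, Finset.mul_sum]
  exact Finset.sum_congr rfl fun y _ => by ring

theorem EvenOp.neg {T} (hT : EvenOp X T) (x : X.Ins) (f : X.Ins → ℂ) :
    T x (fun y => - f y) = - T x f := by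
  have := hT.smul x (-1) f
  simpa using this

theorem EvenOp.sum {T} (hT : EvenOp X T) (x : X.Ins) {ι : Type*} (t : Finset ι)
    (f : ι → X.Ins → ℂ) :
    T x (fun y => ∑ i ∈ t, f i y) = ∑ i ∈ t, T x (f i) := by
  obtain ⟨s, c, h, -⟩ := hT x
  simp only [h, Finset.mul_sum]
  exact Finset.sum_comm

theorem EvenOp.congr {T} (hT : EvenOp X T) (x : X.Ins) {f g : X.Ins → ℂ}
    (hfg : ∀ y, Even (X.par y + X.par x) → f y = g y) : T x f = T x g := by
  obtain ⟨s, c, h, hc⟩ := hT x
  rw [h, h]
  refine Finset.sum_congr rfl fun y _ => ?_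
  by_cases hy : c y = 0
  · simp [hy]
  · rw [hfg y (hc y hy)]

theorem EvenOp.fubini {T S} (hT : EvenOp X T) (hS : EvenOp X S) (x x' : X.Ins)
    (h : X.Ins → X.Ins → ℂ) :
    T x (fun y => S x' (fun y' => h y y')) = S x' (fun y' => T x (fun y => h y y')) := by
  obtain ⟨s, c, hs, -⟩ := hT x
  obtain ⟨s', c', hs', -⟩ := hS x'
  simp only [hs, hs', Finset.mul_sum]
  rw [Finset.sum_comm]
  exact Finset.sum_congr rfl fun y _ => Finset.sum_congr rfl fun y' _ => by ring

theorem derive_nil (T : X.Ins → (X.Ins → ℂ) → ℂ) (F : List X.Ins → ℂ) :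
    X.derive T F [] = 0 := by
  simp [derive]

theorem derive_cons (T : X.Ins → (X.Ins → ℂ) → ℂ) (F : List X.Ins → ℂ) (x : X.Ins)
    (l : List X.Ins) :
    X.derive T F (x :: l) =
      T x (fun y => F (y :: l)) + X.derive T (fun l' => F (x :: l')) l := by
  simp only [derive, List.length_cons]
  rw [Fin.sum_univ_succ]
  rfl

theorem derive_congr {T : X.Ins → (X.Ins → ℂ) → ℂ} {F F' : List X.Ins → ℂ} {l : List X.Ins}
    (h : ∀ l' : List X.Ins, l'.length = l.length → F l' = F' l') :
    X.derive T F l = X.derive T F' l := by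
  unfold derive
  refine Finset.sum_congr rfl fun j _ => ?_
  congr 1
  funext y
  exact h _ (by simp)

theorem derive_zero {T} (hT : EvenOp X T) (l : List X.Ins) :
    X.derive T (fun _ => 0) l = 0 := by
  unfold derive
  exact Finset.sum_eq_zero fun j _ => hT.zero _

theorem derive_add {T} (hT : EvenOp X T) (F F' : List X.Ins → ℂ) (l : List X.Ins) :
    X.derive T (fun l' => F l' + F' l') l = X.derive T F l + X.derive T F' l := by
  unfold derive
  rw [← Finset.sum_add_distrib]
  exact Finset.sum_congr rfl fun j _ => hT.add _ _ _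

theorem derive_smul {T} (hT : EvenOp X T) (a : ℂ) (F : List X.Ins → ℂ) (l : List X.Ins) :
    X.derive T (fun l' => a * F l') l = a * X.derive T F l := by
  unfold derive
  rw [Finset.mul_sum]
  exact Finset.sum_congr rfl fun j _ => hT.smul _ _ _

theorem derive_neg {T} (hT : EvenOp X T) (F : List X.Ins → ℂ) (l : List X.Ins) :
    X.derive T (fun l' => - F l') l = - X.derive T F l := by
  have := derive_smul hT (-1) F l
  simpa using this

theorem derive_sum {T} (hT : EvenOp X T) {ι : Type*} (t : Finset ι)
    (F : ι → List X.Ins → ℂ) (l : List X.Ins) :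
    X.derive T (fun l' => ∑ i ∈ t, F i l') l = ∑ i ∈ t, X.derive T (F i) l := by
  unfold derive
  rw [Finset.sum_comm]
  exact Finset.sum_congr rfl fun j _ => hT.sum _ _ _

theorem derive_append (T : X.Ins → (X.Ins → ℂ) → ℂ) (F : List X.Ins → ℂ) (l₁ l₂ : List X.Ins) :
    X.derive T F (l₁ ++ l₂) = X.derive T (fun l' => F (l' ++ l₂)) l₁ +
      X.derive T (fun l' => F (l₁ ++ l')) l₂ := by
  induction l₁ generalizing F with
  | nil => simp [derive_nil]
  | cons x l ih =>
    rw [List.cons_append, derive_cons, derive_cons, ih]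
    simp only [List.cons_append]
    ring

/-- An operator applied to an outside slot commutes with `derive`. -/
theorem derive_slot {T S} (hT : EvenOp X T) (hS : EvenOp X S) (x : X.Ins)
    (F : X.Ins → List X.Ins → ℂ) (l : List X.Ins) :
    T x (fun y => X.derive S (F y) l) = X.derive S (fun l' => T x (fun y => F y l')) l := by
  unfold derive
  rw [hT.sum]
  exact Finset.sum_congr rfl fun j _ => hT.fubini hS _ _ _

/-- The commutator of two derivations. -/
theorem derive_comm {T S} (hT : EvenOp X T) (hS : EvenOp X S) (F : List X.Ins → ℂ)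
    (l : List X.Ins) :
    X.derive T (X.derive S F) l = X.derive S (X.derive T F) l +
      X.derive (fun x f => T x (fun y => S y f) - S x (fun y => T y f)) F l := by
  induction l generalizing F with
  | nil => simp [derive_nil]
  | cons x l ih =>
    have h1 : X.derive T (fun l' => X.derive S F (x :: l')) l =
        X.derive T (fun l' => S x (fun y => F (y :: l'))) l +
          X.derive T (X.derive S (fun l' => F (x :: l'))) l := by
      rw [← derive_add hT]
      congr 1
      funext l'
      rw [derive_cons]
    have h2 : X.derive S (fun l' => X.derive T F (x :: l')) l =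
        X.derive S (fun l' => T x (fun y => F (y :: l'))) l +
          X.derive S (X.derive T (fun l' => F (x :: l'))) l := by
      rw [← derive_add hS]
      congr 1
      funext l'
      rw [derive_cons]
    have h3 : T x (fun y => X.derive S F (y :: l)) =
        T x (fun y => S y (fun z => F (z :: l))) +
          X.derive S (fun l' => T x (fun y => F (y :: l'))) l := by
      rw [← derive_slot hT hS x (fun y l' => F (y :: l')) l, ← hT.add]
      congr 1
      funext y
      rw [derive_cons]
    have h4 : S x (fun y => X.derive T F (y :: l)) =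
        S x (fun y => T y (fun z => F (z :: l))) +
          X.derive T (fun l' => S x (fun y => F (y :: l'))) l := by
      rw [← derive_slot hS hT x (fun y l' => F (y :: l')) l, ← hS.add]
      congr 1
      funext y
      rw [derive_cons]
    rw [derive_cons, derive_cons, derive_cons, h1, h2, h3, h4, ih]
    ring

/-! ### splitSum -/

theorem splitSum_nil (f : List X.Ins → List X.Ins → ℂ) : X.splitSum f [] = f [] [] := rfl

theorem splitSum_cons (f : List X.Ins → List X.Ins → ℂ) (x : X.Ins) (l : List X.Ins) :
    X.splitSum f (x :: l) = X.splitSum (fun l₁ l₂ => f (x :: l₁) l₂) l +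
      X.splitSum (fun l₁ l₂ => (-1) ^ (X.par x * (l₁.map X.par).sum) * f l₁ (x :: l₂)) l := rfl

theorem splitSum_zero (l : List X.Ins) : X.splitSum (fun _ _ => 0) l = 0 := by
  induction l with
  | nil => rfl
  | cons x l ih => simp [splitSum_cons, ih]

theorem splitSum_add (f g : List X.Ins → List X.Ins → ℂ) (l : List X.Ins) :
    X.splitSum (fun l₁ l₂ => f l₁ l₂ + g l₁ l₂) l = X.splitSum f l + X.splitSum g l := by
  induction l generalizing f g with
  | nil => rfl
  | cons x l ih => simp only [splitSum_cons, mul_add, ih]; ring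

theorem splitSum_smul (a : ℂ) (f : List X.Ins → List X.Ins → ℂ) (l : List X.Ins) :
    X.splitSum (fun l₁ l₂ => a * f l₁ l₂) l = a * X.splitSum f l := by
  induction l generalizing f with
  | nil => rfl
  | cons x l ih =>
    simp only [splitSum_cons, mul_add, ← ih]
    congr 2
    funext l₁ l₂
    ring

theorem splitSum_sum {ι : Type*} (t : Finset ι) (f : ι → List X.Ins → List X.Ins → ℂ)
    (l : List X.Ins) :
    X.splitSum (fun l₁ l₂ => ∑ i ∈ t, f i l₁ l₂) l = ∑ i ∈ t, X.splitSum (f i) l := by
  classical
  induction t using Finset.induction_on with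
  | empty => simp [splitSum_zero]
  | insert i t hi ih => simp [Finset.sum_insert hi, splitSum_add, ih]

theorem EvenOp.splitSum {T} (hT : EvenOp X T) (x : X.Ins)
    (g : X.Ins → List X.Ins → List X.Ins → ℂ) (l : List X.Ins) :
    T x (fun y => X.splitSum (g y) l) = X.splitSum (fun l₁ l₂ => T x (fun y => g y l₁ l₂)) l := by
  obtain ⟨s, c, h, -⟩ := hT x
  simp only [h]
  rw [splitSum_sum]
  exact Finset.sum_congr rfl fun y _ => (splitSum_smul _ _ _).symm

theorem neg_one_pow_mul_congr {a b n : ℕ} (h : Even (a + b)) :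
    (-1 : ℂ) ^ (a * n) = (-1) ^ (b * n) := by
  have : Even (a * n + b * n) := by
    rw [← add_mul]; exact h.mul_right n
  have h1 : (-1 : ℂ) ^ (a * n) * (-1) ^ (b * n) = 1 := by
    rw [← pow_add]; exact this.neg_one_pow
  have h2 : (-1 : ℂ) ^ (b * n) * (-1) ^ (b * n) = 1 := by
    rw [← pow_add]; exact (Even.add_self _).neg_one_pow
  calc (-1 : ℂ) ^ (a * n) = (-1) ^ (a * n) * ((-1) ^ (b * n) * (-1) ^ (b * n)) := by rw [h2, mul_one]
    _ = (-1) ^ (b * n) := by rw [← mul_assoc, h1, one_mul]

theorem neg_one_pow_congr {a b : ℕ} (h : Even (a + b)) :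
    (-1 : ℂ) ^ a = (-1) ^ b := by
  simpa using neg_one_pow_mul_congr (n := 1) h

theorem even_sum_set (l : List X.Ins) (j : Fin l.length) (y : X.Ins)
    (hy : Even (X.par y + X.par (l.get j))) :
    Even (((l.set j y).map X.par).sum + (l.map X.par).sum) := by
  induction l with
  | nil => exact j.elim0
  | cons x l ih =>
    revert hy
    refine Fin.cases ?_ (fun i => ?_) j
    · intro hy
      have h1 : Even (X.par y + X.par x) := hy
      show Even (((y :: l).map X.par).sum + ((x :: l).map X.par).sum)
      rw [List.map_cons, List.map_cons, List.sum_cons, List.sum_cons]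
      rw [Nat.even_iff] at *
      omega
    · intro hy
      have h1 := ih i hy
      show Even (((x :: l.set i y).map X.par).sum + ((x :: l).map X.par).sum)
      rw [List.map_cons, List.map_cons, List.sum_cons, List.sum_cons]
      rw [Nat.even_iff] at *
      omega

theorem derive_sign {T} (hT : EvenOp X T) (a : ℕ) (F : List X.Ins → ℂ) (l : List X.Ins) :
    X.derive T (fun l' => (-1) ^ (a * (l'.map X.par).sum) * F l') l =
      (-1) ^ (a * (l.map X.par).sum) * X.derive T F l := by
  unfold derive
  rw [Finset.mul_sum]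
  refine Finset.sum_congr rfl fun j _ => ?_
  rw [← hT.smul]
  refine hT.congr _ fun y hy => ?_
  have := even_sum_set l j y hy
  show (-1 : ℂ) ^ (a * ((l.set j y).map X.par).sum) * F (l.set j y) = _
  rw [mul_comm a, mul_comm a, neg_one_pow_mul_congr this]

/-- Leibniz rule for the derivation `derive T` and the shuffle product. -/
theorem derive_splitSum {T} (hT : EvenOp X T) (f : List X.Ins → List X.Ins → ℂ)
    (l : List X.Ins) :
    X.derive T (X.splitSum f) l = X.splitSum (fun l₁ l₂ =>
      X.derive T (fun l' => f l' l₂) l₁ + X.derive T (fun l' => f l₁ l') l₂) l := by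
  induction l generalizing f with
  | nil => simp [derive_nil, splitSum_nil]
  | cons x l ih =>
    have h1 : T x (fun y => X.splitSum f (y :: l)) =
        X.splitSum (fun l₁ l₂ => T x (fun y => f (y :: l₁) l₂)) l +
        X.splitSum (fun l₁ l₂ => (-1) ^ (X.par x * (l₁.map X.par).sum) *
          T x (fun y => f l₁ (y :: l₂))) l := by
      have e1 : T x (fun y => X.splitSum f (y :: l)) =
          T x (fun y => X.splitSum (fun l₁ l₂ => f (y :: l₁) l₂) l +
            X.splitSum (fun l₁ l₂ => (-1) ^ (X.par x * (l₁.map X.par).sum) *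
              f l₁ (y :: l₂)) l) := by
        refine hT.congr _ fun y hy => ?_
        rw [splitSum_cons]
        congr 2
        funext l₁ l₂
        rw [neg_one_pow_mul_congr hy]
      rw [e1, hT.add, hT.splitSum, hT.splitSum]
      congr 2
      funext l₁ l₂
      rw [hT.smul]
    have h2 : X.derive T (fun l' => X.splitSum f (x :: l')) l =
        X.splitSum (fun l₁ l₂ =>
          X.derive T (fun l' => f (x :: l') l₂) l₁ + X.derive T (fun l' => f (x :: l₁) l') l₂) l +
        X.splitSum (fun l₁ l₂ => (-1) ^ (X.par x * (l₁.map X.par).sum) *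
          (X.derive T (fun l' => f l' (x :: l₂)) l₁ +
            X.derive T (fun l' => f l₁ (x :: l')) l₂)) l := by
      have e2 : (fun l' => X.splitSum f (x :: l')) = fun l' =>
          X.splitSum (fun l₁ l₂ => f (x :: l₁) l₂) l' +
            X.splitSum (fun l₁ l₂ => (-1) ^ (X.par x * (l₁.map X.par).sum) * f l₁ (x :: l₂)) l' := by
        funext l'
        rw [splitSum_cons]
      rw [e2, derive_add hT, ih, ih]
      congr 2
      funext l₁ l₂
      rw [derive_sign hT, derive_smul hT]
      ring
    rw [derive_cons, h1, h2, splitSum_cons]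
    simp only [derive_cons, mul_add, splitSum_add]
    ring

end Cohomology

end Vale.Agent.P269
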