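import Vale.Agent.P269.H727.Theta

/-! The Chern number `∫ h c_{D-1}` as a coefficient of the leading term. -/

namespace Vale.Agent.P269.LW

open PowerSeries

/-- `1/(1 + d h)` over `ℂ` -/
noncomputable def gd (d : ℕ) : PowerSeries ℂ :=
  PowerSeries.map (Int.castRingHom ℂ) (invOfUnit (1 + C (d : ℤ) * X) 1)

theorem gd_mul (d : ℕ) : (1 + C (d : ℂ) * X) * gd d = 1 := by
  have h : (1 + C (d : ℤ) * X) * invOfUnit (1 + C (d : ℤ) * X) 1 = (1 : PowerSeries ℤ) :=
    mul_invOfUnit _ _ (by simp)
  have h2 := congrArg (PowerSeries.map (Int.castRingHom ℂ)) h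
  rw [map_mul, map_one, map_add, map_mul, map_one, PowerSeries.map_C, PowerSeries.map_X] at h2
  simpa [gd] using h2

/-- `1/(1 + (d-1) z) = e_d / (1-z)` -/
noncomputable def fd (d : ℕ) : PowerSeries ℂ := ui * e d

theorem fd_mul (d : ℕ) : ((1 - X) + C (d : ℂ) * X) * fd d = 1 := by
  have h1 := e_mul d
  have h2 := v_u
  have h3 := u_ui
  have h4 : (C (d : ℂ) : PowerSeries ℂ) = (d : PowerSeries ℂ) := by simp
  rw [h4]
  unfold fd
  linear_combination (ui * (1 - X)) * h1 - ((d : PowerSeries ℂ) * ui * e d) * h2 + h3

theorem constantCoeff_ui : constantCoeff ui = 1 := by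
  have := congrArg (constantCoeff (R := ℂ)) u_ui
  simpa using this

theorem constantCoeff_gd (d : ℕ) : constantCoeff (gd d) = 1 := by
  have := congrArg (constantCoeff (R := ℂ)) (gd_mul d)
  simpa using this

theorem constantCoeff_fd (d : ℕ) : constantCoeff (fd d) = 1 := by
  have := congrArg (constantCoeff (R := ℂ)) (fd_mul d)
  simpa using this

theorem constantCoeff_prod_gd (deg : List ℕ) : constantCoeff (deg.map gd).prod = 1 := by
  induction deg with
  | nil => simp
  | cons d deg ih => simp [constantCoeff_gd, ih]

theorem constantCoeff_prod_fd (deg : List ℕ) : constantCoeff (deg.map fd).prod = 1 := by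
  induction deg with
  | nil => simp
  | cons d deg ih => simp [constantCoeff_fd, ih]

theorem coeff_change (deg : List ℕ) : ∀ n m : ℕ,
    coeff m ((1 + X) ^ (n + m + deg.length) * (deg.map gd).prod) =
      coeff m (ui ^ (n + 1) * (deg.map fd).prod) := by
  induction deg with
  | nil =>
    intro n
    simp only [List.length_nil, add_zero, List.map_nil, List.prod_nil, mul_one]
    induction n with
    | zero =>
      intro m
      simp only [zero_add, pow_one]
      have h1 : coeff m ui = 1 := by
        induction m with
        | zero => simpa using constantCoeff_ui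
        | succ m ih =>
          have := congrArg (coeff (m + 1)) u_ui
          rw [sub_mul, one_mul, map_sub, coeff_succ_X_mul, ih, coeff_one,
            if_neg (Nat.succ_ne_zero m)] at this
          linear_combination this
      rw [h1]
      have h2 : ((1 + X : PowerSeries ℂ) ^ m) = ((1 + Polynomial.X : Polynomial ℂ) ^ m :
          Polynomial ℂ) := by simp
      rw [h2, Polynomial.coeff_coe, Polynomial.coeff_one_add_X_pow]
      simp
    | succ n ihn =>
      intro m
      induction m with
      | zero => simp [constantCoeff_ui]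
      | succ m ihm =>
        have h1 : coeff (m + 1) (ui ^ (n + 1 + 1)) = coeff m (ui ^ (n + 1 + 1)) +
            coeff (m + 1) (ui ^ (n + 1)) := by
          have h2 : ui ^ (n + 1 + 1) = X * ui ^ (n + 1 + 1) + ui ^ (n + 1) := by
            rw [pow_succ ui (n + 1)]
            linear_combination (ui ^ (n + 1)) * u_ui
          conv_lhs => rw [h2]
          rw [map_add, coeff_succ_X_mul]
        rw [h1, ← ihm, ← ihn]
        have h2 : ∀ k, ((1 + X : PowerSeries ℂ) ^ k) = ((1 + Polynomial.X : Polynomial ℂ) ^ k :
            Polynomial ℂ) := by intro k; simp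
        rw [h2, h2, h2, Polynomial.coeff_coe, Polynomial.coeff_coe, Polynomial.coeff_coe,
          Polynomial.coeff_one_add_X_pow, Polynomial.coeff_one_add_X_pow,
          Polynomial.coeff_one_add_X_pow]
        rw [show n + 1 + (m + 1) = (n + (m + 1)) + 1 by ring, Nat.choose_succ_succ,
          show n + 1 + m = n + (m + 1) by ring]
        push_cast
        ring
  | cons d deg ih =>
    intro n m
    simp only [List.length_cons, List.map_cons, List.prod_cons]
    induction m generalizing n with
    | zero =>
      simp [constantCoeff_gd, constantCoeff_fd, constantCoeff_prod_gd, constantCoeff_prod_fd,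
        constantCoeff_ui]
    | succ m ihm =>
      have h1 := ih (n + 1) (m + 1)
      have h2 : (1 + X) ^ (n + 1 + (m + 1) + deg.length) * (deg.map gd).prod =
          (1 + X) ^ (n + (m + 1) + (deg.length + 1)) * (gd d * (deg.map gd).prod) +
          X * (C (d : ℂ) * ((1 + X) ^ (n + 1 + m + (deg.length + 1)) *
            (gd d * (deg.map gd).prod))) := by
        rw [show n + (m + 1) + (deg.length + 1) = n + 1 + (m + 1) + deg.length by ring,
          show n + 1 + m + (deg.length + 1) = n + 1 + (m + 1) + deg.length by ring]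
        linear_combination (-((1 + X) ^ (n + 1 + (m + 1) + deg.length) *
          (deg.map gd).prod)) * gd_mul d
      have h3 : ui ^ (n + 1 + 1) * (deg.map fd).prod =
          ui ^ (n + 1) * (fd d * (deg.map fd).prod) +
          X * (C (d : ℂ) * (ui ^ (n + 1 + 1) * (fd d * (deg.map fd).prod))) := by
        rw [pow_succ ui (n + 1)]
        linear_combination (-(ui ^ (n + 1) * ui * (deg.map fd).prod)) * fd_mul d +
          (ui ^ (n + 1) * fd d * (deg.map fd).prod) * u_ui
      rw [h2, h3, map_add, map_add, coeff_succ_X_mul, coeff_succ_X_mul, coeff_C_mul,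
        coeff_C_mul, ihm (n + 1)] at h1
      linear_combination h1

theorem vΦ_eq (deg : List ℕ) : v * Φ deg =
    X ^ (deg.length + 1) * (C ((deg.prod : ℕ) : ℂ) * (ui ^ 3 * (deg.map fd).prod)) := by
  have h : (deg.map r).prod = X ^ deg.length * (C ((deg.prod : ℕ) : ℂ) * (deg.map fd).prod) := by
    induction deg with
    | nil => simp
    | cons d deg ih =>
      simp only [List.map_cons, List.prod_cons, List.length_cons]
      rw [ih]
      have : r d = X * (C (d : ℂ) * fd d) := by
        have h4 : (C (d : ℂ) : PowerSeries ℂ) = (d : PowerSeries ℂ) := by simp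
        rw [h4]
        unfold r fd v
        ring
      rw [this]
      push_cast
      rw [map_mul]
      ring
  unfold Φ
  rw [h]
  unfold v
  ring

/-- `∫ h c_{D-1}` is the coefficient of `z^N` in `v Φ`. -/
theorem coeff_vΦ (N : ℕ) (deg : List ℕ) (h : deg.length + 1 ≤ N) :
    coeff N (v * Φ deg) = (hcD N deg : ℂ) := by
  obtain ⟨m, rfl⟩ : ∃ m, N = m + (deg.length + 1) := ⟨N - (deg.length + 1), by omega⟩
  rw [vΦ_eq, coeff_X_pow_mul, coeff_C_mul]
  unfold hcD
  rw [show m + (deg.length + 1) - deg.length - 1 = m by omega]
  have h1 := coeff_change deg 2 m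
  rw [show 2 + 1 = 3 by norm_num] at h1
  rw [← h1]
  have h2 : (((1 + X) ^ (2 + m + deg.length) * (deg.map gd).prod : PowerSeries ℂ)) =
      PowerSeries.map (Int.castRingHom ℂ) ((1 + X) ^ (m + (deg.length + 1) + 1) *
        (deg.map fun d : ℕ => invOfUnit (1 + C (d : ℤ) * X) 1).prod) := by
    rw [map_mul, map_pow, map_add, map_one, PowerSeries.map_X, map_list_prod, List.map_map]
    rw [show m + (deg.length + 1) + 1 = 2 + m + deg.length by ring]
    rfl
  rw [h2, coeff_map, Int.cast_mul, Int.cast_natCast]
  rfl

end Vale.Agent.P269.LW
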