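import Vale.Agent.P269.H727.Ops

/-! Commutators with the lowering operator, and extraction of one entry from a shuffle. -/

namespace Vale.Agent.P269

namespace Cohomology

variable {X : Cohomology}

/-- The defect of the commutator `[vir, low]` at `τ_0`. -/
noncomputable def Cfun (X : Cohomology) (K : ℕ) (a : X.I) (f : X.Ins → ℂ) : ℂ :=
  ∑ i ∈ Finset.range K, br (X.μ a - 1 / 2) (K + 1) i * ∑ b, (X.R ^ i) a b * f (K - 1 - i, b)

theorem low_zero (a : X.I) (f : X.Ins → ℂ) : X.low (0, a) f = 0 := by simp [low]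

theorem low_succ (m : ℕ) (a : X.I) (f : X.Ins → ℂ) : X.low (m + 1, a) f = f (m, a) := by
  simp [low]

theorem low_of_ne {m : ℕ} (hm : m ≠ 0) (a : X.I) (f : X.Ins → ℂ) :
    X.low (m, a) f = f (m - 1, a) := by
  simp [low, hm]

theorem vir_low (K : ℕ) (x : X.Ins) (f : X.Ins → ℂ) :
    X.vir (K + 1) x (fun y => X.low y f) =
      X.low x (fun y => X.vir (K + 1) y f) + ((K + 1) * X.vir K x f +
        if x.1 = 0 then X.Cfun K x.2 f else 0) := by
  obtain ⟨m, a⟩ := x
  -- left side
  have hA : X.vir (K + 1) (m, a) (fun y => X.low y f) =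
      ∑ i ∈ Finset.range (K + 2), if i < m + K then
        br (X.μ a + m + 1 / 2) (K + 1) i * ∑ b, (X.R ^ i) a b * f (m + K - 1 - i, b) else 0 := by
    unfold vir
    refine Finset.sum_congr rfl fun i _ => ?_
    by_cases h1 : i < m + K
    · rw [if_pos (show i < m + (K + 1) by omega), if_pos h1]
      congr 1
      refine Finset.sum_congr rfl fun b _ => ?_
      show (X.R ^ i) a b * X.low (m + (K + 1) - 1 - i, b) f = _
      rw [low_of_ne (show m + (K + 1) - 1 - i ≠ 0 by omega)]
      rw [show m + (K + 1) - 1 - i - 1 = m + K - 1 - i by omega]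
    · rw [if_neg h1]
      split_ifs with h2
      · have h3 : m + (K + 1) - 1 - i = 0 := by
          simp only at h2
          omega
        simp only [h3, low_zero, mul_zero, Finset.sum_const_zero]
      · rfl
  have hV : (K + 1 : ℂ) * X.vir K (m, a) f =
      ∑ i ∈ Finset.range (K + 2), if i < m + K then
        ((K + 1 : ℂ) * br (X.μ a + m + 1 / 2) K i) *
          ∑ b, (X.R ^ i) a b * f (m + K - 1 - i, b) else 0 := by
    rw [Finset.sum_range_succ, br_eq_zero (Nat.lt_succ_self K), mul_zero, zero_mul, ite_self,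
      add_zero]
    unfold vir
    rw [Finset.mul_sum]
    refine Finset.sum_congr rfl fun i _ => ?_
    split_ifs <;> ring
  cases m with
  | zero =>
    have hC : X.Cfun K a f = ∑ i ∈ Finset.range (K + 2), if i < 0 + K then
        br (X.μ a - 1 / 2) (K + 1) i * ∑ b, (X.R ^ i) a b * f (0 + K - 1 - i, b) else 0 := by
      rw [← Finset.sum_filter]
      unfold Cfun
      have : (Finset.range (K + 2)).filter (fun i => i < 0 + K) = Finset.range K := by
        ext i; simp; omega
      rw [this]
      simp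
    rw [hA, hV, if_pos rfl, hC]
    rw [← Finset.sum_add_distrib]
    simp only [low, if_true, zero_add]
    refine Finset.sum_congr rfl fun i _ => ?_
    split_ifs
    · have := br_shift (X.μ a - 1 / 2) K i
      rw [show X.μ a - 1 / 2 + 1 = X.μ a + (0 : ℕ) + 1 / 2 by push_cast; ring] at this
      rw [this]
      ring
    · simp
  | succ m =>
    have hB : X.low (m + 1, a) (fun y => X.vir (K + 1) y f) =
        ∑ i ∈ Finset.range (K + 2), if i < m + 1 + K then
          br (X.μ a + m + 1 / 2) (K + 1) i *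
            ∑ b, (X.R ^ i) a b * f (m + 1 + K - 1 - i, b) else 0 := by
      rw [low, if_neg (Nat.succ_ne_zero m)]
      unfold vir
      refine Finset.sum_congr rfl fun i _ => ?_
      simp only [Nat.add_sub_cancel]
      rw [show m + (K + 1) = m + 1 + K by ring]
    rw [hA, hV, hB, if_neg (Nat.succ_ne_zero m), add_zero, ← Finset.sum_add_distrib]
    refine Finset.sum_congr rfl fun i _ => ?_
    split_ifs
    · have := br_shift (X.μ a + m + 1 / 2) K i
      rw [show X.μ a + m + 1 / 2 + 1 = X.μ a + ((m + 1 : ℕ) : ℂ) + 1 / 2 by push_cast; ring] at this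
      rw [this]
      ring
    · simp

theorem quad_low (K : ℕ) (Q : X.Ins → X.Ins → ℂ) :
    X.quad (K + 1) (fun x y => X.low x (fun x' => Q x' y) + X.low y (fun y' => Q x y')) =
      (K + 1) * X.quad K Q := by
  cases K with
  | zero => simp [quad, low_zero]
  | succ K =>
    unfold quad
    rw [show K + 1 + 1 - 1 = K + 1 by omega, show K + 1 - 1 = K by omega,
      Finset.sum_range_succ, show K + 1 + 1 - 2 - K = 0 by omega]
    have hlast : (∑ mn ∈ Finset.HasAntidiagonal.antidiagonal (0 : ℕ),
        (-1 : ℂ) ^ (mn.1 + 1) * ∑ a, ∑ b, X.η⁻¹ a b * br (X.μ b - mn.1 - 1 / 2) (K + 1 + 1) K *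
          ∑ c, (X.R ^ K) b c * (X.low (mn.1, a) (fun x' => Q x' (mn.2, c)) +
            X.low (mn.2, c) (fun y' => Q (mn.1, a) y'))) = 0 := by
      simp [low_zero]
    rw [hlast, add_zero, Finset.mul_sum]
    refine Finset.sum_congr rfl fun i hi => ?_
    have hi' : i < K := Finset.mem_range.1 hi
    rw [show K + 1 + 1 - 2 - i = (K + 1 - 2 - i) + 1 by omega]
    generalize K + 1 - 2 - i = t
    have hsplit : ∀ mn ∈ Finset.HasAntidiagonal.antidiagonal (t + 1),
        (-1 : ℂ) ^ (mn.1 + 1) * ∑ a, ∑ b,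
          X.η⁻¹ a b * br (X.μ b - mn.1 - 1 / 2) (K + 1 + 1) i *
          ∑ c, (X.R ^ i) b c * (X.low (mn.1, a) (fun x' => Q x' (mn.2, c)) +
            X.low (mn.2, c) (fun y' => Q (mn.1, a) y')) =
        (-1 : ℂ) ^ (mn.1 + 1) * (∑ a, ∑ b,
          X.η⁻¹ a b * br (X.μ b - mn.1 - 1 / 2) (K + 1 + 1) i *
          ∑ c, (X.R ^ i) b c * X.low (mn.1, a) (fun x' => Q x' (mn.2, c))) +
        (-1 : ℂ) ^ (mn.1 + 1) * (∑ a, ∑ b,
          X.η⁻¹ a b * br (X.μ b - mn.1 - 1 / 2) (K + 1 + 1) i *
          ∑ c, (X.R ^ i) b c * X.low (mn.2, c) (fun y' => Q (mn.1, a) y')) := by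
      intro mn _
      simp only [mul_add, Finset.sum_add_distrib]
    rw [Finset.sum_congr rfl hsplit, Finset.sum_add_distrib,
      Finset.Nat.sum_antidiagonal_succ, Finset.Nat.sum_antidiagonal_succ']
    simp only [low_zero, low_succ, mul_zero, Finset.sum_const_zero, zero_add, add_zero]
    rw [← Finset.sum_add_distrib, Finset.mul_sum]
    refine Finset.sum_congr rfl fun mn _ => ?_
    rw [pow_succ (-1 : ℂ) (mn.1 + 1)]
    have : ∀ u v w : ℂ, u * -1 * v + u * w = u * (w - v) := fun u v w => by ring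
    rw [this, mul_left_comm]
    congr 1
    rw [Finset.mul_sum, ← Finset.sum_sub_distrib]
    refine Finset.sum_congr rfl fun a _ => ?_
    rw [Finset.mul_sum, ← Finset.sum_sub_distrib]
    refine Finset.sum_congr rfl fun b _ => ?_
    have hb := br_shift (X.μ b - ((mn.1 + 1 : ℕ) : ℂ) - 1 / 2) (K + 1) i
    rw [show X.μ b - ((mn.1 + 1 : ℕ) : ℂ) - 1 / 2 + 1 = X.μ b - mn.1 - 1 / 2 by
      push_cast; ring] at hb
    rw [hb]
    ring

/-! ### graded symmetric functions of lists -/

/-- Graded symmetry. -/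
def GSymm (F : List X.Ins → ℂ) : Prop :=
  ∀ l₁ x y l₂, F (l₁ ++ x :: y :: l₂) = (-1) ^ (X.par x * X.par y) * F (l₁ ++ y :: x :: l₂)

theorem GSymm.cons {F : List X.Ins → ℂ} (hF : GSymm F) (z : X.Ins) :
    GSymm (fun l => F (z :: l)) := fun l₁ x y l₂ => hF (z :: l₁) x y l₂

theorem GSymm.swap_head {F : List X.Ins → ℂ} (hF : GSymm F) (x y : X.Ins) (l : List X.Ins) :
    F (x :: y :: l) = (-1) ^ (X.par x * X.par y) * F (y :: x :: l) := hF [] x y l

theorem GSymm.move {F : List X.Ins → ℂ} (hF : GSymm F) (l₁ : List X.Ins) (x : X.Ins)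
    (l₂ : List X.Ins) :
    F (l₁ ++ x :: l₂) = (-1) ^ (X.par x * (l₁.map X.par).sum) * F (x :: (l₁ ++ l₂)) := by
  induction l₁ generalizing F with
  | nil => simp
  | cons z l ih =>
    have h1 := ih (hF.cons z)
    simp only [List.cons_append, List.map_cons, List.sum_cons] at h1 ⊢
    rw [h1, hF.swap_head z x]
    rw [mul_add, pow_add, mul_comm (X.par z)]
    ring

theorem GSymm.move_even {F : List X.Ins → ℂ} (hF : GSymm F) (l₁ : List X.Ins) (x : X.Ins)
    (hx : X.par x = 0) (l₂ : List X.Ins) :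
    F (l₁ ++ x :: l₂) = F (x :: (l₁ ++ l₂)) := by
  rw [hF.move, hx]; simp

/-- `one1 c [e] = c e`, and `0` on lists of other lengths. -/
def one1 (c : X.Ins → ℂ) : List X.Ins → ℂ
  | [e] => c e
  | _ => 0

theorem splitSum_left_nil (f : List X.Ins → ℂ) (l : List X.Ins) :
    X.splitSum (fun l₁ l₂ => if l₁ = [] then f l₂ else 0) l = f l := by
  induction l generalizing f with
  | nil => rfl
  | cons x l ih =>
    rw [splitSum_cons]
    have h1 : (fun (l₁ l₂ : List X.Ins) => if x :: l₁ = [] then f l₂ else 0) =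
        fun _ _ => (0 : ℂ) := by
      funext l₁ l₂; simp
    have h2 : (fun (l₁ l₂ : List X.Ins) => (-1 : ℂ) ^ (X.par x * (l₁.map X.par).sum) *
        if l₁ = [] then f (x :: l₂) else 0) =
        fun l₁ l₂ => if l₁ = [] then f (x :: l₂) else 0 := by
      funext l₁ l₂
      split_ifs with h
      · subst h; simp
      · simp
    rw [h1, h2, splitSum_zero, zero_add, ih (fun l => f (x :: l))]

theorem splitSum_right_nil (f : List X.Ins → ℂ) (l : List X.Ins) :
    X.splitSum (fun l₁ l₂ => if l₂ = [] then f l₁ else 0) l = f l := by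
  induction l generalizing f with
  | nil => rfl
  | cons x l ih =>
    rw [splitSum_cons]
    have h2 : (fun (l₁ l₂ : List X.Ins) => (-1 : ℂ) ^ (X.par x * (l₁.map X.par).sum) *
        if x :: l₂ = [] then f l₁ else 0) = fun _ _ => (0 : ℂ) := by
      funext l₁ l₂; simp
    rw [h2, splitSum_zero, add_zero, ih (fun l => f (x :: l))]

theorem splitSum_extract_left (c : X.Ins → ℂ) (y : X.Ins)
    (hc : ∀ e, c e ≠ 0 → Even (X.par e + X.par y)) {F : List X.Ins → ℂ} (hF : GSymm F)
    (l : List X.Ins) :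
    X.splitSum (fun l₁ l₂ => one1 c l₁ * F (y :: l₂)) l =
      X.derive (fun e f => c e * f y) F l := by
  induction l generalizing F with
  | nil => simp [splitSum_nil, derive_nil, one1]
  | cons x l ih =>
    rw [splitSum_cons, derive_cons, ← ih (hF.cons x)]
    congr 1
    · have h1 : (fun (l₁ l₂ : List X.Ins) => one1 c (x :: l₁) * F (y :: l₂)) =
          fun l₁ l₂ => if l₁ = [] then c x * F (y :: l₂) else 0 := by
        funext l₁ l₂
        cases l₁ <;> simp [one1]
      rw [h1, splitSum_left_nil (fun l₂ => c x * F (y :: l₂))]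
    · congr 1
      funext l₁ l₂
      match l₁ with
      | [] => simp [one1]
      | [e] =>
        by_cases he : c e = 0
        · simp [one1, he]
        · rw [hF.swap_head y x]
          have h1 := neg_one_pow_mul_congr (n := X.par x) (hc e he)
          simp only [one1, List.map_cons, List.map_nil, List.sum_cons, List.sum_nil, add_zero]
          rw [mul_comm (X.par x), h1]
          have h2 : (-1 : ℂ) ^ (X.par y * X.par x) * (-1) ^ (X.par y * X.par x) = 1 := by
            rw [← pow_add]; exact (Even.add_self _).neg_one_pow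
          linear_combination (c e * F (x :: y :: l₂)) * h2
      | e :: e' :: l' => simp [one1]

theorem splitSum_extract_right (c : X.Ins → ℂ) (x : X.Ins)
    (hc : ∀ e, c e ≠ 0 → Even (X.par e + X.par x)) {F : List X.Ins → ℂ} (hF : GSymm F)
    (l : List X.Ins) :
    X.splitSum (fun l₁ l₂ => F (l₁ ++ [x]) * one1 c l₂) l =
      X.derive (fun e f => c e * f x) F l := by
  induction l generalizing F with
  | nil => simp [splitSum_nil, derive_nil, one1]
  | cons z l ih =>
    rw [splitSum_cons, derive_cons, ← ih (hF.cons z)]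
    rw [add_comm]
    congr 1
    have h1 : (fun (l₁ l₂ : List X.Ins) => (-1 : ℂ) ^ (X.par z * (l₁.map X.par).sum) *
        (F (l₁ ++ [x]) * one1 c (z :: l₂))) =
        fun l₁ l₂ => if l₂ = [] then
          (-1 : ℂ) ^ (X.par z * (l₁.map X.par).sum) * (F (l₁ ++ [x]) * c z) else 0 := by
      funext l₁ l₂
      cases l₂ <;> simp [one1]
    rw [h1, splitSum_right_nil
      (fun l₁ => (-1 : ℂ) ^ (X.par z * (l₁.map X.par).sum) * (F (l₁ ++ [x]) * c z))]
    by_cases hz : c z = 0
    · simp [hz]
    · rw [hF.move l x []]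
      have h1 := neg_one_pow_mul_congr (n := (l.map X.par).sum) (hc z hz)
      rw [h1, List.append_nil]
      have h2 : (-1 : ℂ) ^ (X.par x * (l.map X.par).sum) *
          (-1) ^ (X.par x * (l.map X.par).sum) = 1 := by
        rw [← pow_add]; exact (Even.add_self _).neg_one_pow
      linear_combination (c z * F (x :: l)) * h2

end Cohomology

end Vale.Agent.P269
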