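import Vale.Agent.P269.H727.Fam
import Vale.Agent.P269.Potential

/-! The powers of the free energy. -/

set_option linter.unusedSectionVars false

namespace Vale.Agent.P269

open Cohomology H728

variable {X : Cohomology} {B : Type} [AddCommMonoid B] [DecidableEq B] [Finset.HasAntidiagonal B]

/-- A finite linear combination of values at pairs of insertions of equal parity. -/
def EvenForm (X : Cohomology) (φ : (X.Ins → X.Ins → ℂ) → ℂ) : Prop :=
  ∃ c : (X.Ins × X.Ins) →₀ ℂ, (∀ Q, φ Q = c.sum fun p a => a * Q p.1 p.2) ∧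
    ∀ p, c p ≠ 0 → Even (X.par p.1 + X.par p.2)

namespace EvenForm

theorem zero : EvenForm X (fun _ => 0) := ⟨0, by simp, by simp⟩

theorem single {a : ℂ} {x y : X.Ins} (h : a ≠ 0 → Even (X.par x + X.par y)) :
    EvenForm X (fun Q => a * Q x y) := by
  classical
  refine ⟨Finsupp.single (x, y) a, fun Q => ?_, fun z hz => ?_⟩
  · rw [Finsupp.sum_single_index]; simp
  · rw [Finsupp.single_apply] at hz
    split_ifs at hz with h'
    · subst h'; exact h hz
    · exact absurd rfl hz

theorem add {φ ψ : (X.Ins → X.Ins → ℂ) → ℂ} (hφ : EvenForm X φ) (hψ : EvenForm X ψ) :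
    EvenForm X (fun f => φ f + ψ f) := by
  obtain ⟨c, h1, h2⟩ := hφ
  obtain ⟨c', h1', h2'⟩ := hψ
  refine ⟨c + c', fun f => ?_, fun y hy => ?_⟩
  · show φ f + ψ f = _
    rw [h1, h1', Finsupp.sum_add_index'] <;> intros <;> ring
  · by_cases h : c y = 0
    · refine h2' y fun h' => hy ?_
      rw [Finsupp.add_apply, h, h', add_zero]
    · exact h2 y h

theorem smul {φ : (X.Ins → X.Ins → ℂ) → ℂ} (a : ℂ) (hφ : EvenForm X φ) :
    EvenForm X (fun f => a * φ f) := by
  obtain ⟨c, h1, h2⟩ := hφ
  refine ⟨a • c, fun f => ?_, fun y hy => h2 y fun h => hy ?_⟩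
  · show a * φ f = _
    rw [h1, Finsupp.sum_smul_index (by simp)]
    simp only [Finsupp.sum, Finset.mul_sum, mul_assoc]
  · rw [Finsupp.smul_apply, h, smul_zero]

theorem sum {ι : Type*} (s : Finset ι) {φ : ι → (X.Ins → X.Ins → ℂ) → ℂ}
    (h : ∀ i ∈ s, EvenForm X (φ i)) : EvenForm X (fun f => ∑ i ∈ s, φ i f) := by
  classical
  induction s using Finset.induction_on with
  | empty => simpa using EvenForm.zero
  | insert i s hi ih =>
    simp only [Finset.sum_insert hi]
    exact (h i (Finset.mem_insert_self _ _)).add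
      (ih fun j hj => h j (Finset.mem_insert_of_mem hj))

theorem mul_sum {ι : Type*} (s : Finset ι) (a : ℂ) {φ : ι → (X.Ins → X.Ins → ℂ) → ℂ}
    (h : ∀ i ∈ s, EvenForm X (fun Q => a * φ i Q)) : EvenForm X (fun f => a * ∑ i ∈ s, φ i f) := by
  simp only [Finset.mul_sum]
  exact sum s h

end EvenForm

theorem quad_form (K : ℕ) : EvenForm X (X.quad K) := by
  unfold quad
  refine EvenForm.sum _ fun i _ => EvenForm.sum _ fun mn _ => EvenForm.smul _
    (EvenForm.sum _ fun a _ => EvenForm.sum _ fun b _ => ?_)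
  by_cases h : X.η⁻¹ a b = 0
  · simp only [h, zero_mul]
    exact EvenForm.zero
  · refine EvenForm.smul _ (EvenForm.sum _ fun c _ => EvenForm.single fun hc => ?_)
    have h1 := η_inv_deg _ _ h
    have h2 := R_pow_deg _ _ _ hc
    simp only [par, Nat.even_iff]
    omega

section star

/-- a form applied to a product -/
theorem EvenForm.star_left {φ : (X.Ins → X.Ins → ℂ) → ℂ} (hφ : EvenForm X φ)
    (f : X.Ins → X.Ins → ℕ → B → List X.Ins → ℂ) (g : ℕ → B → List X.Ins → ℂ)
    (j : ℕ) (d : B) (l : List X.Ins) :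
    φ (fun x y => star (f x y) g j d l) =
      star (fun j d l => φ (fun x y => f x y j d l)) g j d l := by
  obtain ⟨c, h1, -⟩ := hφ
  simp only [h1, Finsupp.sum]
  unfold star
  simp only [Finset.sum_mul]
  simp only [splitSum_sum, mul_assoc]
  simp only [splitSum_smul, Finset.mul_sum]
  rw [Finset.sum_comm]
  refine Finset.sum_congr rfl fun gg _ => ?_
  rw [Finset.sum_comm]

theorem EvenForm.congr {φ : (X.Ins → X.Ins → ℂ) → ℂ} (hφ : EvenForm X φ)
    {Q Q' : X.Ins → X.Ins → ℂ} (h : ∀ x y, Even (X.par x + X.par y) → Q x y = Q' x y) :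
    φ Q = φ Q' := by
  obtain ⟨c, h1, h2⟩ := hφ
  rw [h1, h1, Finsupp.sum, Finsupp.sum]
  refine Finset.sum_congr rfl fun p hp => ?_
  rw [h _ _ (h2 p (Finsupp.mem_support_iff.1 hp))]

theorem EvenForm.map_add {φ : (X.Ins → X.Ins → ℂ) → ℂ} (hφ : EvenForm X φ)
    (Q Q' : X.Ins → X.Ins → ℂ) : φ (fun x y => Q x y + Q' x y) = φ Q + φ Q' := by
  obtain ⟨c, h1, h2⟩ := hφ
  simp only [h1, mul_add, Finsupp.sum, Finset.sum_add_distrib]

theorem EvenForm.map_smul {φ : (X.Ins → X.Ins → ℂ) → ℂ} (hφ : EvenForm X φ) (a : ℂ)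
    (Q : X.Ins → X.Ins → ℂ) : φ (fun x y => a * Q x y) = a * φ Q := by
  obtain ⟨c, h1, h2⟩ := hφ
  simp only [h1, Finsupp.sum, Finset.mul_sum, mul_left_comm]

theorem EvenForm.map_sum {φ : (X.Ins → X.Ins → ℂ) → ℂ} (hφ : EvenForm X φ) {ι : Type*}
    (s : Finset ι) (Q : ι → X.Ins → X.Ins → ℂ) :
    φ (fun x y => ∑ i ∈ s, Q i x y) = ∑ i ∈ s, φ (Q i) := by
  obtain ⟨c, h1, h2⟩ := hφ
  simp only [h1, Finsupp.sum, Finset.mul_sum]
  rw [Finset.sum_comm]

theorem EvenOp.star_left {T : X.Ins → (X.Ins → ℂ) → ℂ} (hT : EvenOp X T) (z : X.Ins)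
    (f : X.Ins → ℕ → B → List X.Ins → ℂ) (g : ℕ → B → List X.Ins → ℂ)
    (j : ℕ) (d : B) (l : List X.Ins) :
    T z (fun y => star (f y) g j d l) =
      star (fun j d l => T z (fun y => f y j d l)) g j d l := by
  obtain ⟨s, c, h1, -⟩ := hT z
  simp only [h1]
  unfold star
  simp only [Finset.sum_mul]
  simp only [splitSum_sum, mul_assoc]
  simp only [splitSum_smul, Finset.mul_sum]
  rw [Finset.sum_comm]
  refine Finset.sum_congr rfl fun gg _ => ?_
  rw [Finset.sum_comm]

/-- derivations and products -/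
theorem derive_star {T : X.Ins → (X.Ins → ℂ) → ℂ} (hT : EvenOp X T)
    (f g : ℕ → B → List X.Ins → ℂ) (j : ℕ) (d : B) (l : List X.Ins) :
    X.derive T (star f g j d) l = star (fun j d => X.derive T (f j d)) g j d l +
      star f (fun j d => X.derive T (g j d)) j d l := by
  have h1 : star f g j d = fun l => ∑ gg ∈ Finset.HasAntidiagonal.antidiagonal j,
    ∑ dd ∈ Finset.HasAntidiagonal.antidiagonal d,
    X.splitSum (fun l₁ l₂ => f gg.1 dd.1 l₁ * g gg.2 dd.2 l₂) l := rfl
  rw [h1, derive_sum hT]
  unfold star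
  rw [← Finset.sum_add_distrib]
  refine Finset.sum_congr rfl fun gg _ => ?_
  rw [derive_sum hT, ← Finset.sum_add_distrib]
  refine Finset.sum_congr rfl fun dd _ => ?_
  rw [derive_splitSum hT, ← splitSum_add]
  congr 1
  funext l₁ l₂
  rw [derive_smul hT]
  congr 1
  have := derive_smul hT (g gg.2 dd.2 l₂) (f gg.1 dd.1) l₁
  simp only [mul_comm (g gg.2 dd.2 l₂)] at this
  exact this

theorem HomP.derive {T : X.Ins → (X.Ins → ℂ) → ℂ} (hT : EvenOp X T) {a : ℕ}
    {f : ℕ → B → List X.Ins → ℂ} (hf : HomP a f) : HomP a (fun j d => X.derive T (f j d)) := by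
  intro j d l h
  by_contra hne
  apply h
  unfold Cohomology.derive
  refine Finset.sum_eq_zero fun i _ => ?_
  rw [← hT.zero (l.get i)]
  refine hT.congr _ fun y hy => ?_
  by_contra h1
  have h2 := hf _ _ _ h1
  have h3 := even_sum_set l i y hy
  apply hne
  rw [Nat.even_iff] at *
  omega

end star

namespace GWTheory

variable (G : GWTheory X B)

theorem corr_homP : HomP 0 G.corr := by
  intro g d l h
  have h1 := G.dim_p g d l h
  have h2 := G.dim_q g d l h
  have h3 : (((l.map X.par).sum : ℕ) : ℤ) + 2 * (l.map fun x => (x.1 : ℤ)).sum =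
      (l.map fun x => (x.1 + X.p x.2 : ℤ)).sum + (l.map fun x => (x.1 + X.q x.2 : ℤ)).sum := by
    clear h h1 h2
    induction l with
    | nil => simp
    | cons x l ih =>
      simp only [List.map_cons, List.sum_cons, Cohomology.par] at ih ⊢
      push_cast at ih ⊢
      linarith
  rw [add_zero, ← Int.even_coe_nat, Int.even_iff]
  omega

theorem powF_succ (m : ℕ) : G.powF (m + 1) = star G.corr (G.powF m) := rfl

theorem powF_zero_cons (j : ℕ) (d : B) (x : X.Ins) (l : List X.Ins) :
    G.powF 0 j d (x :: l) = 0 := by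
  simp [powF]

theorem powF_homP (m : ℕ) : HomP 0 (G.powF m) := by
  induction m with
  | zero =>
    intro j d l h
    simp only [powF] at h
    split_ifs at h with h1
    · rw [h1.2.2]; simp
    · exact absurd rfl h
  | succ m ih =>
    rw [powF_succ]
    exact G.corr_homP.star ih

theorem powF_cons (m : ℕ) (j : ℕ) (d : B) (x : X.Ins) (l : List X.Ins) :
    G.powF (m + 1) j d (x :: l) =
      (m + 1) * star (fun j d l => G.corr j d (x :: l)) (G.powF m) j d l := by
  induction m generalizing j d l with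
  | zero =>
    rw [powF_succ, star_cons G.corr_homP]
    have : (fun j d l => G.powF 0 j d (x :: l)) = fun _ _ _ => (0 : ℂ) := by
      funext j d l
      exact G.powF_zero_cons j d x l
    rw [this]
    have h0 : star G.corr (fun _ _ _ => 0) j d l = 0 := by
      simp [star, splitSum_zero]
    rw [h0]
    simp
  | succ m ih =>
    rw [powF_succ, star_cons G.corr_homP]
    have h1 : (fun j d l => G.powF (m + 1) j d (x :: l)) = fun j d l =>
        (m + 1 : ℂ) * star (fun j d l => G.corr j d (x :: l)) (G.powF m) j d l := by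
      funext j d l
      exact ih j d l
    rw [h1, star_smul_right, star_left_comm G.corr_homP (G.corr_homP.cons x)]
    rw [← powF_succ]
    simp only [mul_zero, zero_mul, pow_zero, one_mul]
    push_cast
    ring

theorem powF_derive {T : X.Ins → (X.Ins → ℂ) → ℂ} (hT : EvenOp X T) (m : ℕ) (j : ℕ) (d : B)
    (l : List X.Ins) :
    X.derive T (G.powF (m + 1) j d) l =
      (m + 1) * star (fun j d => X.derive T (G.corr j d)) (G.powF m) j d l := by
  induction m generalizing j d l with
  | zero =>
    rw [powF_succ, derive_star hT]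
    have : (fun j d => X.derive T (G.powF 0 j d)) = fun _ _ _ => (0 : ℂ) := by
      funext j d l
      cases l with
      | nil => rw [derive_nil]
      | cons x l =>
        unfold Cohomology.derive
        refine Finset.sum_eq_zero fun i _ => ?_
        rw [← hT.zero ((x :: l).get i)]
        congr 1
        funext y
        simp only [powF]
        rw [if_neg]
        rintro ⟨-, -, h⟩
        have := congrArg List.length h
        simp at this
    rw [this]
    have h0 : star G.corr (fun _ _ _ => 0) j d l = 0 := by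
      simp [star, splitSum_zero]
    rw [h0]
    simp
  | succ m ih =>
    rw [powF_succ, derive_star hT]
    have h1 : (fun j d => X.derive T (G.powF (m + 1) j d)) = fun j d l =>
        (m + 1 : ℂ) * star (fun j d => X.derive T (G.corr j d)) (G.powF m) j d l := by
      funext j d l
      exact ih j d l
    rw [h1, star_smul_right, star_left_comm G.corr_homP (G.corr_homP.derive hT)]
    rw [← powF_succ]
    simp only [mul_zero, pow_zero, one_mul]
    push_cast
    ring

end GWTheory

end Vale.Agent.P269
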