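import Vale.Agent.P269.H727.Exp

/-! The Virasoro operators applied to the powers of the free energy. -/

set_option linter.unusedSectionVars false

namespace Vale.Agent.P269

open Cohomology H728

variable {X : Cohomology} {B : Type} [AddCommMonoid B] [DecidableEq B] [Finset.HasAntidiagonal B]

/-- shift in the genus -/
noncomputable def sh (f : ℕ → B → List X.Ins → ℂ) : ℕ → B → List X.Ins → ℂ := fun j d l =>
  if j = 0 then 0 else f (j - 1) d l

theorem star_sh (f g : ℕ → B → List X.Ins → ℂ) (j : ℕ) (d : B) (l : List X.Ins) :
    star (sh f) g j d l = sh (star f g) j d l := by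
  unfold star sh
  cases j with
  | zero => simp [splitSum_zero]
  | succ j =>
    rw [if_neg (Nat.succ_ne_zero j)]
    rw [Finset.Nat.sum_antidiagonal_succ]
    simp [splitSum_zero]

theorem star_unit (u : List X.Ins → ℂ) (g : ℕ → B → List X.Ins → ℂ) (j : ℕ) (d : B)
    (l : List X.Ins) :
    star (fun j d l => if j = 0 ∧ d = 0 then u l else 0) g j d l =
      X.splitSum (fun l₁ l₂ => u l₁ * g j d l₂) l := by
  unfold star
  rw [Finset.sum_eq_single (0, j)]
  · rw [Finset.sum_eq_single (0, d)]
    · simp
    · rintro ⟨a, b⟩ hp hne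
      rw [Finset.HasAntidiagonal.mem_antidiagonal] at hp
      simp only at hp
      have ha : a ≠ 0 := by
        rintro rfl
        apply hne
        rw [zero_add] at hp
        rw [hp]
      simp [ha, splitSum_zero]
    · intro h
      exfalso
      apply h
      rw [Finset.HasAntidiagonal.mem_antidiagonal]
      simp
  · rintro ⟨a, b⟩ hp hne
    rw [Finset.HasAntidiagonal.mem_antidiagonal] at hp
    simp only at hp
    have ha : a ≠ 0 := by
      rintro rfl
      apply hne
      rw [zero_add] at hp
      rw [hp]
    simp [ha, splitSum_zero]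
  · intro h
    exfalso
    apply h
    rw [Finset.HasAntidiagonal.mem_antidiagonal]
    simp

namespace GWTheory

variable (G : GWTheory X B) (K : ℕ)

/-- the part of the Virasoro coefficients linear in the correlators -/
noncomputable def lin : ℕ → B → List X.Ins → ℂ := fun j d l =>
  - X.vir K (1, X.one) (fun y => G.corr j d (y :: l)) + X.derive (X.vir K) (G.corr j d) l

/-- the second derivatives -/
noncomputable def q1 : ℕ → B → List X.Ins → ℂ := fun j d l =>
  X.quad K (fun x y => G.corr j d (x :: y :: l))

/-- the products of first derivatives -/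
noncomputable def q2 : ℕ → B → List X.Ins → ℂ := fun j d l =>
  X.quad K (fun x y => (-1) ^ (X.par x) *
    star (fun j d l => G.corr j d (x :: l)) (fun j d l => G.corr j d (y :: l)) j d l)

theorem lin_zero (j : ℕ) (d : B) (l : List X.Ins) :
    - X.vir K (1, X.one) (fun y => G.powF 0 j d (y :: l)) + X.derive (X.vir K) (G.powF 0 j d) l =
      0 := by
  have h1 : (fun y => G.powF 0 j d (y :: l)) = fun _ => (0 : ℂ) := by
    funext y
    exact G.powF_zero_cons j d y l
  rw [h1, (vir_even K).zero, neg_zero, zero_add]
  cases l with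
  | nil => rw [derive_nil]
  | cons x l =>
    unfold Cohomology.derive
    refine Finset.sum_eq_zero fun i _ => ?_
    rw [← (vir_even K).zero ((x :: l).get i)]
    congr 1
    funext y
    simp only [powF]
    rw [if_neg]
    rintro ⟨-, -, h⟩
    have := congrArg List.length h
    simp at this

theorem lin_succ (m j : ℕ) (d : B) (l : List X.Ins) :
    - X.vir K (1, X.one) (fun y => G.powF (m + 1) j d (y :: l)) +
      X.derive (X.vir K) (G.powF (m + 1) j d) l = (m + 1) * star (G.lin K) (G.powF m) j d l := by
  have h1 : X.vir K (1, X.one) (fun y => G.powF (m + 1) j d (y :: l)) =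
      (m + 1) * star (fun j d l => X.vir K (1, X.one) (fun y => G.corr j d (y :: l)))
        (G.powF m) j d l := by
    rw [← Vale.Agent.P269.EvenOp.star_left (vir_even K) (1, X.one)
      (fun y j d l => G.corr j d (y :: l)),
      ← (vir_even K).smul]
    congr 1
    funext y
    exact G.powF_cons m j d y l
  rw [h1, G.powF_derive (vir_even K)]
  have h2 : G.lin K = fun j d l => (-1) * X.vir K (1, X.one) (fun y => G.corr j d (y :: l)) +
      X.derive (X.vir K) (G.corr j d) l := by
    funext j d l
    simp [lin]
  rw [h2, star_add_left, star_smul_left]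
  ring

theorem powF_cons_cons_one (j : ℕ) (d : B) (x y : X.Ins) (l : List X.Ins) :
    G.powF 1 j d (x :: y :: l) =
      star (fun j d l => G.corr j d (x :: y :: l)) (G.powF 0) j d l := by
  rw [G.powF_cons, star_cons (G.corr_homP.cons x)]
  have : (fun j d l => G.powF 0 j d (y :: l)) = fun _ _ _ => (0 : ℂ) := by
    funext j d l
    exact G.powF_zero_cons j d y l
  rw [this]
  have h0 : star (fun j d l => G.corr j d (x :: l)) (fun _ _ _ => 0) j d l = 0 := by
    simp [star, splitSum_zero]
  rw [h0]
  simp

theorem powF_cons_cons (m j : ℕ) (d : B) (x y : X.Ins) (l : List X.Ins) :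
    G.powF (m + 2) j d (x :: y :: l) =
      (m + 2) * star (fun j d l => G.corr j d (x :: y :: l)) (G.powF (m + 1)) j d l +
      (m + 2) * (m + 1) * star (fun j d l => (-1) ^ (X.par x * X.par y) *
        star (fun j d l => G.corr j d (x :: l)) (fun j d l => G.corr j d (y :: l)) j d l)
          (G.powF m) j d l := by
  rw [G.powF_cons, star_cons (G.corr_homP.cons x)]
  have : (fun j d l => G.powF (m + 1) j d (y :: l)) = fun j d l => (m + 1 : ℂ) *
      star (fun j d l => G.corr j d (y :: l)) (G.powF m) j d l := by
    funext j d l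
    exact G.powF_cons m j d y l
  rw [this, star_smul_right, ← star_assoc, star_smul_left]
  rw [add_zero, mul_comm (X.par y)]
  push_cast
  ring

theorem quad_one (j : ℕ) (d : B) (l : List X.Ins) :
    X.quad K (fun x y => G.powF 1 j d (x :: y :: l)) = star (G.q1 K) (G.powF 0) j d l := by
  unfold q1
  rw [← (quad_form K).star_left (fun x y j d l => G.corr j d (x :: y :: l))]
  congr 1
  funext x y
  exact G.powF_cons_cons_one j d x y l

theorem quad_add_two (m j : ℕ) (d : B) (l : List X.Ins) :
    X.quad K (fun x y => G.powF (m + 2) j d (x :: y :: l)) =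
      (m + 2) * star (G.q1 K) (G.powF (m + 1)) j d l +
      (m + 2) * (m + 1) * star (G.q2 K) (G.powF m) j d l := by
  unfold q1 q2
  rw [← (quad_form K).star_left (fun x y j d l => G.corr j d (x :: y :: l)),
    ← (quad_form K).star_left (fun x y j d l => (-1) ^ (X.par x) *
      star (fun j d l => G.corr j d (x :: l)) (fun j d l => G.corr j d (y :: l)) j d l),
    ← (quad_form K).map_smul, ← (quad_form K).map_smul, ← (quad_form K).map_add]
  refine (quad_form K).congr fun x y hxy => ?_
  rw [G.powF_cons_cons]
  have : (-1 : ℂ) ^ (X.par x * X.par y) = (-1) ^ (X.par x) := by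
    apply Cohomology.neg_one_pow_congr
    have h1 : Even (X.par x * (X.par y + 1)) := by
      rw [Nat.even_mul]
      rw [Nat.even_iff] at *
      rw [Nat.even_iff]
      omega
    rwa [mul_add, mul_one] at h1
  rw [this]

theorem second_eq (g : ℕ) (d : B) (l : List X.Ins) (x y : X.Ins) :
    G.second g d l x y = sh (fun j d l => G.corr j d (x :: y :: l)) g d l +
      (-1) ^ (X.par x) * star (fun j d l => G.corr j d (x :: l))
        (fun j d l => G.corr j d (y :: l)) g d l := by
  unfold second sh star
  congr 1
  rw [Finset.mul_sum]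
  refine Finset.sum_congr rfl fun gg _ => ?_
  rw [Finset.mul_sum]
  refine Finset.sum_congr rfl fun dd _ => ?_
  rw [← splitSum_smul]
  congr 1
  funext u v
  have h1 := (G.gsymm gg.1 dd.1).move u x []
  rw [List.append_nil] at h1
  rw [h1]
  by_cases h : G.corr gg.1 dd.1 (x :: u) = 0
  · rw [h]; simp [h]
  · have h2 := G.corr_homP _ _ _ h
    simp only [List.map_cons, List.sum_cons] at h2
    have h3 : (-1 : ℂ) ^ (X.par x * (u.map X.par).sum) = (-1) ^ (X.par x) := by
      apply Cohomology.neg_one_pow_congr
      have h1 : Even (X.par x * ((u.map X.par).sum + 1)) := by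
        rw [Nat.even_mul]
        rw [Nat.even_iff] at *
        rw [Nat.even_iff]
        omega
      rwa [mul_add, mul_one] at h1
    rw [h3]
    ring

theorem quad_second (g : ℕ) (d : B) (l : List X.Ins) :
    X.quad K (G.second g d l) = sh (G.q1 K) g d l + G.q2 K g d l := by
  have h1 : G.second g d l = fun x y => sh (fun j d l => G.corr j d (x :: y :: l)) g d l +
      (-1) ^ (X.par x) * star (fun j d l => G.corr j d (x :: l))
        (fun j d l => G.corr j d (y :: l)) g d l := by
    funext x y
    exact G.second_eq g d l x y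
  rw [h1, (quad_form K).map_add]
  congr 1
  unfold sh
  by_cases hg : g = 0
  · simp only [hg, if_true]
    have := (quad_form (X := X) K).map_smul 0 (fun _ _ => 0)
    simpa using this
  · simp only [hg, if_false]
    rfl

/-- The product of the family of Virasoro coefficients with the powers of the free energy. -/
theorem star_virasoro (m j : ℕ) (d : B) (l : List X.Ins) :
    star (G.virasoro K) (G.powF m) j d l =
      star (G.lin K) (G.powF m) j d l +
      1 / 2 * (sh (star (G.q1 K) (G.powF m)) j d l + star (G.q2 K) (G.powF m) j d l) +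
      X.splitSum (fun l₁ l₂ => X.pairing (X.R ^ K * X.η) l₁ * G.powF m j d l₂) l +
      (if K = 1 then X.χ / 16 - X.strμ2 / 4 else 0) * sh (G.powF m) j d l := by
  have h1 : G.virasoro K = fun j d l => (G.lin K j d l + 1 / 2 * (sh (G.q1 K) j d l +
      G.q2 K j d l)) + ((fun j d l => if j = 0 ∧ d = 0 then X.pairing (X.R ^ K * X.η) l else 0) j d l
      + sh (fun j d l => if j = 0 ∧ d = 0 then (if l = [] then
        (if K = 1 then X.χ / 16 - X.strμ2 / 4 else 0) else 0) else 0) j d l) := by
    funext j d l
    rw [virasoro, quad_second, lin]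
    have h2 : (if K = 1 ∧ j = 1 ∧ d = 0 ∧ l = [] then X.χ / 16 - X.strμ2 / 4 else 0) =
      sh (fun j d l => if j = 0 ∧ d = 0 then (if l = [] then
        (if K = 1 then X.χ / 16 - X.strμ2 / 4 else 0) else 0) else 0) j d l := by
      unfold sh
      rcases j with _ | _ | j
      · simp
      · by_cases hd : d = 0 <;> by_cases hl : l = [] <;> by_cases hK : K = 1 <;> simp [hd, hl, hK]
      · simp
    rw [h2]
    ring
  rw [h1, star_add_left, star_add_left, star_add_left, star_smul_left, star_add_left, star_sh,
    star_sh, star_unit]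
  have h3 : sh (star (fun j d l => if j = 0 ∧ d = 0 then (if l = [] then
        (if K = 1 then X.χ / 16 - X.strμ2 / 4 else 0) else 0) else 0) (G.powF m)) j d l =
      (if K = 1 then X.χ / 16 - X.strμ2 / 4 else 0) * sh (G.powF m) j d l := by
    unfold sh
    by_cases hj : j = 0
    · simp [hj]
    · rw [if_neg hj, if_neg hj, star_unit]
      have h4 : (fun (l₁ l₂ : List X.Ins) => (if l₁ = [] then
          (if K = 1 then X.χ / 16 - X.strμ2 / 4 else 0) else 0) * G.powF m (j - 1) d l₂) =
          fun l₁ l₂ => if l₁ = [] then (fun l₂ => (if K = 1 then X.χ / 16 - X.strμ2 / 4 else 0) *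
            G.powF m (j - 1) d l₂) l₂ else 0 := by
        funext l₁ l₂
        split_ifs <;> simp
      rw [h4, splitSum_left_nil]
  rw [h3]
  ring

end GWTheory

end Vale.Agent.P269
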