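import Vale.Agent.P269.H727.Exp2

/-! `L_k Z` in terms of the coefficients of `Z⁻¹ L_k Z`. -/

set_option linter.unusedSectionVars false

namespace Vale.Agent.P269

open Cohomology H728

variable {X : Cohomology} {B : Type} [AddCommMonoid B] [DecidableEq B] [Finset.HasAntidiagonal B]

/-- truncated exponential sums -/
noncomputable def SS (M : ℕ) (n : ℤ) (c : ℕ → ℕ → ℂ) : ℂ :=
  ∑ m ∈ Finset.range M, if 0 ≤ n + m then c m (n + m).toNat / m.factorial else 0

theorem SS_add (M : ℕ) (n : ℤ) (c c' : ℕ → ℕ → ℂ) :
    SS M n (fun m j => c m j + c' m j) = SS M n c + SS M n c' := by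
  unfold SS
  rw [← Finset.sum_add_distrib]
  refine Finset.sum_congr rfl fun m _ => ?_
  split_ifs
  · rw [add_div]
  · simp

theorem SS_smul (M : ℕ) (n : ℤ) (a : ℂ) (c : ℕ → ℕ → ℂ) :
    SS M n (fun m j => a * c m j) = a * SS M n c := by
  unfold SS
  rw [Finset.mul_sum]
  refine Finset.sum_congr rfl fun m _ => ?_
  split_ifs
  · rw [mul_div_assoc]
  · simp

theorem SS_shift (M : ℕ) (n : ℤ) (c a : ℕ → ℕ → ℂ) (h0 : ∀ j, c 0 j = 0)
    (h : ∀ m j, c (m + 1) j = (m + 1) * a m j) : SS (M + 1) n c = SS M (n + 1) a := by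
  unfold SS
  rw [Finset.sum_range_succ']
  rw [h0, zero_div, ite_self, add_zero]
  refine Finset.sum_congr rfl fun m _ => ?_
  rw [show n + ((m + 1 : ℕ) : ℤ) = n + 1 + m by push_cast; ring]
  split_ifs
  · rw [h, Nat.factorial_succ]
    push_cast
    have : (m + 1 : ℂ) ≠ 0 := by exact_mod_cast Nat.succ_ne_zero m
    have h2 : (m.factorial : ℂ) ≠ 0 := by exact_mod_cast m.factorial_ne_zero
    field_simp
  · rfl

theorem SS_sh (M : ℕ) (n : ℤ) (a : ℕ → ℕ → ℂ) :
    SS M (n + 1) (fun m j => if j = 0 then 0 else a m (j - 1)) = SS M n a := by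
  unfold SS
  refine Finset.sum_congr rfl fun m _ => ?_
  simp only
  by_cases h : 0 ≤ n + m
  · rw [if_pos h, if_pos (by omega), if_neg (by omega)]
    rw [show (n + 1 + m).toNat - 1 = (n + m).toNat by omega]
  · rw [if_neg h]
    split_ifs with h1 h2
    · simp
    · omega
    · rfl

theorem SS_mono {M M' : ℕ} (hM : M ≤ M') (n : ℤ) (c : ℕ → ℕ → ℂ)
    (h : ∀ m : ℕ, M ≤ m → 0 ≤ n + m → c m (n + m).toNat = 0) : SS M' n c = SS M n c := by
  unfold SS
  symm
  apply Finset.sum_subset
  · intro i hi
    rw [Finset.mem_range] at *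
    omega
  · intro m _ hm
    rw [Finset.mem_range, not_lt] at hm
    split_ifs with h1
    · rw [h m hm h1, zero_div]
    · rfl

theorem splitSum_length {f : List X.Ins → List X.Ins → ℂ} {l : List X.Ins}
    (h : X.splitSum f l ≠ 0) :
    ∃ a b, f a b ≠ 0 ∧ a.length + b.length = l.length := by
  induction l generalizing f with
  | nil => exact ⟨[], [], h, rfl⟩
  | cons x l ih =>
    rw [splitSum_cons] at h
    by_cases h1 : X.splitSum (fun l₁ l₂ => f (x :: l₁) l₂) l = 0
    · rw [h1, zero_add] at h
      obtain ⟨a, b, h2, h3⟩ := ih h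
      refine ⟨a, x :: b, right_ne_zero_of_mul h2, ?_⟩
      simp only [List.length_cons, ← h3]
      ring
    · obtain ⟨a, b, h2, h3⟩ := ih h1
      refine ⟨x :: a, b, h2, ?_⟩
      simp only [List.length_cons, ← h3]
      ring

theorem splitSum_congr_length {f g : List X.Ins → List X.Ins → ℂ} {l : List X.Ins}
    (h : ∀ a b, a.length + b.length = l.length → f a b = g a b) :
    X.splitSum f l = X.splitSum g l := by
  induction l generalizing f g with
  | nil => exact h [] [] rfl
  | cons x l ih =>
    rw [splitSum_cons, splitSum_cons]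
    congr 1
    · exact ih fun a b hab => h _ _ (by simp only [List.length_cons]; omega)
    · exact ih fun a b hab => by rw [h _ _ (by simp only [List.length_cons]; omega)]

theorem star_ne_zero {f g : ℕ → B → List X.Ins → ℂ} {j : ℕ} {d : B} {l : List X.Ins}
    (h : star f g j d l ≠ 0) : ∃ j₁ j₂ d₁ d₂ l₁ l₂, j₁ + j₂ = j ∧ d₁ + d₂ = d ∧
      l₁.length + l₂.length = l.length ∧ f j₁ d₁ l₁ ≠ 0 ∧ g j₂ d₂ l₂ ≠ 0 := by
  unfold star at h
  obtain ⟨gg, hgg, h1⟩ := Finset.exists_ne_zero_of_sum_ne_zero h
  obtain ⟨dd, hdd, h2⟩ := Finset.exists_ne_zero_of_sum_ne_zero h1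
  obtain ⟨u, v, h3, h4⟩ := splitSum_length h2
  exact ⟨gg.1, gg.2, dd.1, dd.2, u, v, Finset.HasAntidiagonal.mem_antidiagonal.1 hgg,
    Finset.HasAntidiagonal.mem_antidiagonal.1 hdd, h4, left_ne_zero_of_mul h3,
    right_ne_zero_of_mul h3⟩

namespace GWTheory

variable (G : GWTheory X B) {H : B →+ ℕ} (hH : ∀ d, H d = 0 → d = 0)
include hH

theorem powF_ne_zero {m j : ℕ} {d : B} {l : List X.Ins} (h : G.powF m j d l ≠ 0) :
    3 * m ≤ 2 * j + l.length + 3 * H d := by
  induction m generalizing j d l with
  | zero => simp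
  | succ m ih =>
    rw [powF_succ] at h
    obtain ⟨j₁, j₂, d₁, d₂, l₁, l₂, h1, h2, h3, h4, h5⟩ := star_ne_zero h
    have h6 := ih h5
    have h7 : 3 ≤ 2 * j₁ + l₁.length + 3 * H d₁ := by
      by_cases hd : d₁ = 0
      · subst hd
        by_contra hlt
        apply h4
        apply G.unstable
        rw [map_zero] at hlt
        omega
      · have : H d₁ ≠ 0 := fun h => hd (hH _ h)
        omega
    have h8 : H d = H d₁ + H d₂ := by rw [← h2, map_add]
    omega

theorem star_powF_eq_zero (f : ℕ → B → List X.Ins → ℂ) {m j : ℕ} {d : B} {l : List X.Ins}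
    (h : 2 * j + l.length + 3 * H d < 3 * m) : star f (G.powF m) j d l = 0 := by
  by_contra hne
  obtain ⟨j₁, j₂, d₁, d₂, l₁, l₂, h1, h2, h3, h4, h5⟩ := star_ne_zero hne
  have h6 := G.powF_ne_zero hH h5
  have h8 : H d = H d₁ + H d₂ := by rw [← h2, map_add]
  omega

theorem Z_eq_SS {n : ℤ} {d : B} {l : List X.Ins} {M : ℕ}
    (hM : 2 * n + l.length + 3 * H d < M) :
    G.Z n d l = SS M n (fun m j => G.powF m j d l) := by
  unfold Z SS
  apply finsum_eq_sum_of_support_subset
  intro m hm
  rw [Function.mem_support] at hm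
  rw [Finset.coe_range, Set.mem_Iio]
  split_ifs at hm with h1
  · have h2 : G.powF m (n + m).toNat d l ≠ 0 := fun h => hm (by rw [h, zero_div])
    have h3 := G.powF_ne_zero hH h2
    omega
  · exact absurd rfl hm

/-- `L_k Z` as a truncated sum. -/
theorem LZ_eq_SS (K : ℕ) (n : ℤ) (d : B) (l : List X.Ins) {M : ℕ}
    (hM : 2 * n + l.length + 3 * H d + 3 ≤ M) :
    G.LZ K n d l = SS M (n + 1) (fun m j => star (G.virasoro K) (G.powF m) j d l) := by
  -- the vanishing of the tails
  have tail : ∀ (f : ℕ → B → List X.Ins → ℂ) (m : ℕ), M ≤ m → 0 ≤ n + 1 + m →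
      star f (G.powF m) (n + 1 + m).toNat d l = 0 := by
    intro f m hm h0
    apply G.star_powF_eq_zero hH
    omega
  have tail' : ∀ (f : ℕ → B → List X.Ins → ℂ) (m : ℕ), M ≤ m → 0 ≤ n + m →
      star f (G.powF m) (n + m).toNat d l = 0 := by
    intro f m hm h0
    apply G.star_powF_eq_zero hH
    omega
  -- the linear terms
  have hA : - X.vir K (1, X.one) (fun y => G.Z n d (y :: l)) + X.derive (X.vir K) (G.Z n d) l =
      SS M (n + 1) (fun m j => star (G.lin K) (G.powF m) j d l) := by
    rw [← SS_shift M n (fun m j => - X.vir K (1, X.one) (fun y => G.powF m j d (y :: l)) +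
      X.derive (X.vir K) (G.powF m j d) l) _ (fun j => G.lin_zero K j d l)
      (fun m j => G.lin_succ K m j d l)]
    have e1 : X.vir K (1, X.one) (fun y => G.Z n d (y :: l)) =
        SS (M + 1) n (fun m j => X.vir K (1, X.one) (fun y => G.powF m j d (y :: l))) := by
      have : (fun y => G.Z n d (y :: l)) = fun y => ∑ m ∈ Finset.range (M + 1),
          (if 0 ≤ n + m then (1 : ℂ) / m.factorial else 0) *
            G.powF m (n + m).toNat d (y :: l) := by
        funext y
        rw [G.Z_eq_SS hH (M := M + 1) (by simp only [List.length_cons]; push_cast; omega)]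
        unfold SS
        refine Finset.sum_congr rfl fun m _ => ?_
        split_ifs <;> ring
      rw [this, (vir_even K).sum]
      unfold SS
      refine Finset.sum_congr rfl fun m _ => ?_
      rw [(vir_even K).smul]
      split_ifs <;> ring
    have e2 : X.derive (X.vir K) (G.Z n d) l =
        SS (M + 1) n (fun m j => X.derive (X.vir K) (G.powF m j d) l) := by
      have : X.derive (X.vir K) (G.Z n d) l = X.derive (X.vir K) (fun l =>
          ∑ m ∈ Finset.range (M + 1),
          (if 0 ≤ n + m then (1 : ℂ) / m.factorial else 0) *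
            G.powF m (n + m).toNat d l) l := by
        apply derive_congr
        intro l' hl'
        rw [G.Z_eq_SS hH (M := M + 1) (by rw [hl']; push_cast; omega)]
        unfold SS
        refine Finset.sum_congr rfl fun m _ => ?_
        split_ifs <;> ring
      rw [this, derive_sum (vir_even K)]
      unfold SS
      refine Finset.sum_congr rfl fun m _ => ?_
      rw [derive_smul (vir_even K)]
      split_ifs <;> ring
    rw [e1, e2, SS_add]
    congr 1
    have := SS_smul (M + 1) n (-1)
      (fun m j => X.vir K (1, X.one) (fun y => G.powF m j d (y :: l)))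
    simpa using this.symm
  -- the quadratic terms
  have hB : X.quad K (fun x y => G.Z (n - 1) d (x :: y :: l)) =
      SS M n (fun m j => star (G.q1 K) (G.powF m) j d l) +
      SS M (n + 1) (fun m j => star (G.q2 K) (G.powF m) j d l) := by
    have e1 : X.quad K (fun x y => G.Z (n - 1) d (x :: y :: l)) =
        SS (M + 2) (n - 1) (fun m j => X.quad K (fun x y => G.powF m j d (x :: y :: l))) := by
      have : (fun x y => G.Z (n - 1) d (x :: y :: l)) = fun x y => ∑ m ∈ Finset.range (M + 2),
          (if 0 ≤ n - 1 + m then (1 : ℂ) / m.factorial else 0) *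
            G.powF m (n - 1 + m).toNat d (x :: y :: l) := by
        funext x y
        rw [G.Z_eq_SS hH (M := M + 2) (by simp only [List.length_cons]; push_cast; omega)]
        unfold SS
        refine Finset.sum_congr rfl fun m _ => ?_
        split_ifs <;> ring
      rw [this, (quad_form K).map_sum]
      unfold SS
      refine Finset.sum_congr rfl fun m _ => ?_
      rw [(quad_form K).map_smul]
      split_ifs <;> ring
    rw [e1]
    have e3 : SS (M + 2) (n - 1)
        (fun m j => X.quad K (fun x y => G.powF m j d (x :: y :: l))) =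
        SS (M + 1) n (fun m j => star (G.q1 K) (G.powF m) j d l +
          (if m = 0 then 0 else m * star (G.q2 K) (G.powF (m - 1)) j d l)) := by
      have := SS_shift (M + 1) (n - 1)
        (fun m j => X.quad K (fun x y => G.powF m j d (x :: y :: l)))
        (fun m j => star (G.q1 K) (G.powF m) j d l +
          (if m = 0 then 0 else m * star (G.q2 K) (G.powF (m - 1)) j d l)) ?_ ?_
      · rw [this]
        congr 1
        ring
      · intro j
        have h1 : (fun x y => G.powF 0 j d (x :: y :: l)) = fun _ _ => (0 : ℂ) := by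
          funext x y
          exact G.powF_zero_cons j d x _
        simp only [h1]
        have := (quad_form (X := X) K).map_smul 0 (fun _ _ => 0)
        simpa using this
      · intro m j
        cases m with
        | zero => rw [quad_one]; simp
        | succ m =>
          rw [quad_add_two, if_neg (Nat.succ_ne_zero m), Nat.add_sub_cancel]
          push_cast
          ring
    rw [e3, SS_add]
    congr 1
    · exact SS_mono (Nat.le_succ M) n _ (fun m hm h0 => tail' _ m hm h0)
    · refine SS_shift M n _ _ (fun j => by simp) (fun m j => ?_)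
      simp
  -- the pairing
  have hC : X.splitSum (fun l₁ l₂ => X.pairing (X.R ^ K * X.η) l₁ * G.Z (n + 1) d l₂) l =
      SS M (n + 1) (fun m j =>
        X.splitSum (fun l₁ l₂ => X.pairing (X.R ^ K * X.η) l₁ * G.powF m j d l₂) l) := by
    have : X.splitSum (fun l₁ l₂ => X.pairing (X.R ^ K * X.η) l₁ * G.Z (n + 1) d l₂) l =
        X.splitSum (fun l₁ l₂ => ∑ m ∈ Finset.range M,
          (if 0 ≤ n + 1 + m then (1 : ℂ) / m.factorial else 0) *
            (X.pairing (X.R ^ K * X.η) l₁ * G.powF m (n + 1 + m).toNat d l₂)) l := by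
      apply splitSum_congr_length
      intro a b hab
      rw [G.Z_eq_SS hH (M := M) (by omega)]
      unfold SS
      rw [Finset.mul_sum]
      refine Finset.sum_congr rfl fun m _ => ?_
      split_ifs <;> ring
    rw [this, splitSum_sum]
    unfold SS
    refine Finset.sum_congr rfl fun m _ => ?_
    rw [splitSum_smul]
    split_ifs <;> ring
  have hD : G.Z n d l = SS M (n + 1) (fun m j => sh (G.powF m) j d l) := by
    rw [G.Z_eq_SS hH (M := M) (by omega)]
    exact (SS_sh M n (fun m j => G.powF m j d l)).symm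
  have hE : SS M n (fun m j => star (G.q1 K) (G.powF m) j d l) =
      SS M (n + 1) (fun m j => sh (star (G.q1 K) (G.powF m)) j d l) :=
    (SS_sh M n (fun m j => star (G.q1 K) (G.powF m) j d l)).symm
  unfold LZ
  rw [hA, hB, hC, hD, hE]
  have hF : (fun m j => star (G.virasoro K) (G.powF m) j d l) = fun m j =>
      star (G.lin K) (G.powF m) j d l +
      1 / 2 * (sh (star (G.q1 K) (G.powF m)) j d l + star (G.q2 K) (G.powF m) j d l) +
      X.splitSum (fun l₁ l₂ => X.pairing (X.R ^ K * X.η) l₁ * G.powF m j d l₂) l +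
      (if K = 1 then X.χ / 16 - X.strμ2 / 4 else 0) * sh (G.powF m) j d l := by
    funext m j
    exact G.star_virasoro K m j d l
  rw [hF, SS_add, SS_add, SS_add, SS_smul, SS_smul, SS_add]

/-- `L_k Z = 0` if all coefficients of `Z⁻¹ L_k Z` vanish. -/
theorem LZ_eq_zero {K : ℕ} (h : ∀ (g : ℕ) (d : B) (l : List X.Ins), G.virasoro K g d l = 0)
    (n : ℤ) (d : B) (l : List X.Ins) : G.LZ K n d l = 0 := by
  rw [G.LZ_eq_SS hH K n d l (M := (2 * n + l.length + 3 * H d + 3).toNat) (by omega)]
  have : ∀ m j, star (G.virasoro K) (G.powF m) j d l = 0 := by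
    intro m j
    have h1 : G.virasoro K = fun _ _ _ => 0 := by
      funext g d l
      exact h g d l
    rw [h1]
    exact star_zero_left _ _ _ _
  simp only [this]
  simp [SS]

end GWTheory

end Vale.Agent.P269
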