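import Vale.Agent.P269.H727.Exp3

/-! `L_k Z = (Z⁻¹ L_k Z) · Z` and the differential equation of the exponential. -/

set_option linter.unusedSectionVars false

namespace Vale.Agent.P269

open Cohomology H728

variable {X : Cohomology} {B : Type} [AddCommMonoid B] [DecidableEq B] [Finset.HasAntidiagonal B]

namespace GWTheory

variable (G : GWTheory X B) {H : B →+ ℕ} (hH : ∀ d, H d = 0 → d = 0)
include hH

/-- truncated sums as products with `Z` -/
theorem SS_star (f : ℕ → B → List X.Ins → ℂ) (n : ℤ) (d : B) (l : List X.Ins) {M : ℕ}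
    (hM : 2 * (n + 1) + l.length + 3 * H d < M) :
    SS M (n + 1) (fun m j => star f (G.powF m) j d l) =
      ∑ᶠ g : ℕ, ∑ dd ∈ Finset.HasAntidiagonal.antidiagonal d,
        X.splitSum (fun l₁ l₂ => f g dd.1 l₁ * G.Z (n + 1 - g) dd.2 l₂) l := by
  have e1 : ∀ g : ℕ, ∑ dd ∈ Finset.HasAntidiagonal.antidiagonal d,
      X.splitSum (fun l₁ l₂ => f g dd.1 l₁ * G.Z (n + 1 - g) dd.2 l₂) l =
      ∑ m ∈ Finset.range M, (if 0 ≤ n + 1 - g + m then (1 : ℂ) / m.factorial else 0) *
        ∑ dd ∈ Finset.HasAntidiagonal.antidiagonal d,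
          X.splitSum (fun l₁ l₂ => f g dd.1 l₁ * G.powF m (n + 1 - g + m).toNat dd.2 l₂) l := by
    intro g
    simp only [Finset.mul_sum]
    rw [Finset.sum_comm]
    refine Finset.sum_congr rfl fun dd hdd => ?_
    have h1 : H d = H dd.1 + H dd.2 := by
      rw [← Finset.HasAntidiagonal.mem_antidiagonal.1 hdd, map_add]
    simp only [← splitSum_smul]
    rw [← splitSum_sum]
    apply splitSum_congr_length
    intro a b hab
    rw [G.Z_eq_SS hH (M := M) (by omega)]
    unfold SS
    rw [Finset.mul_sum]
    refine Finset.sum_congr rfl fun m _ => ?_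
    split_ifs <;> ring
  rw [finsum_eq_sum_of_support_subset (s := Finset.range ((n + 1 + M).toNat + 1))]
  · simp only [e1]
    rw [Finset.sum_comm]
    unfold SS
    refine Finset.sum_congr rfl fun m hm => ?_
    rw [Finset.mem_range] at hm
    split_ifs with h0
    · simp only [star]
      rw [Finset.Nat.sum_antidiagonal_eq_sum_range_succ_mk, div_eq_mul_one_div, mul_comm,
        Finset.mul_sum]
      have hle : (n + 1 + m).toNat.succ ≤ (n + 1 + M).toNat + 1 := by omega
      apply Finset.sum_subset_zero_on_sdiff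
      · intro i hi
        rw [Finset.mem_range] at *
        omega
      · intro g hg
        rw [Finset.mem_sdiff, Finset.mem_range, Finset.mem_range, not_lt] at hg
        rw [if_neg (by omega), zero_mul]
      · intro g hg
        rw [Finset.mem_range] at hg
        rw [if_pos (by omega), show (n + 1 - (g : ℤ) + m).toNat = (n + 1 + m).toNat - g by omega]
    · symm
      apply Finset.sum_eq_zero
      intro g _
      rw [if_neg (by omega), zero_mul]
  · intro g hg
    rw [Function.mem_support] at hg
    rw [Finset.coe_range, Set.mem_Iio]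
    by_contra hlt
    apply hg
    rw [e1]
    refine Finset.sum_eq_zero fun m hm => ?_
    rw [Finset.mem_range] at hm
    rw [if_neg (by omega), zero_mul]

/-- `L_k Z = (Z⁻¹ L_k Z) · Z`: the numbers `G.virasoro (k+1) g d l` are the coefficients of
`Z⁻¹ L_k Z`. -/
theorem LZ_eq (K : ℕ) (n : ℤ) (d : B) (l : List X.Ins) :
    G.LZ K n d l = ∑ᶠ g : ℕ, ∑ dd ∈ Finset.HasAntidiagonal.antidiagonal d,
      X.splitSum (fun l₁ l₂ => G.virasoro K g dd.1 l₁ * G.Z (n + 1 - g) dd.2 l₂) l := by
  rw [G.LZ_eq_SS hH K n d l (M := (2 * n + l.length + 3 * H d + 3).toNat) (by omega)]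
  exact G.SS_star hH _ n d l (by omega)

end GWTheory

end Vale.Agent.P269
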