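import Vale.Agent.P269.H727.Weight
import Vale.Agent.P269.H728.Split
import Vale.Agent.P269.H728.Nov

/-! The product of families of list functions indexed by genus and class. -/

set_option linter.unusedSectionVars false

namespace Vale.Agent.P269

open Cohomology H728

variable {X : Cohomology} {B : Type} [AddCommMonoid B] [DecidableEq B] [Finset.HasAntidiagonal B]

/-- the product -/
noncomputable def star (f g : ℕ → B → List X.Ins → ℂ) : ℕ → B → List X.Ins → ℂ := fun j d l =>
  ∑ gg ∈ Finset.HasAntidiagonal.antidiagonal j, ∑ dd ∈ Finset.HasAntidiagonal.antidiagonal d,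
    X.splitSum (fun l₁ l₂ => f gg.1 dd.1 l₁ * g gg.2 dd.2 l₂) l

/-- a function as an element of the Novikov ring -/
def novMk (f : B → ℂ) : Nov B := f

/-- the value at a list as a power series over the Novikov ring -/
noncomputable def toR (f : ℕ → B → List X.Ins → ℂ) (l : List X.Ins) : PowerSeries (Nov B) :=
  PowerSeries.mk fun j => novMk (fun d => f j d l)

theorem coeff_toR (f : ℕ → B → List X.Ins → ℂ) (l : List X.Ins) (j : ℕ) (d : B) :
    (PowerSeries.coeff j (toR f l)) d = f j d l := by
  rw [toR, PowerSeries.coeff_mk]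
  rfl

theorem toR_injective {f g : ℕ → B → List X.Ins → ℂ} (h : ∀ l, toR f l = toR g l) : f = g := by
  funext j d l
  rw [← coeff_toR f, h, coeff_toR]

theorem coeff_sp (φ : List X.Ins → List X.Ins → PowerSeries (Nov B)) (l : List X.Ins) (j : ℕ)
    (d : B) : (PowerSeries.coeff j (sp φ l)) d =
      X.splitSum (fun a b => (PowerSeries.coeff j (φ a b)) d) l := by
  induction l generalizing φ with
  | nil => rfl
  | cons x l ih =>
    rw [sp_cons, splitSum_cons, map_add, Nov.add_apply, ih, ih]
    congr 2
    funext a b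
    rw [show pl a = (a.map X.par).sum from rfl]
    rcases Nat.even_or_odd (X.par x * (a.map X.par).sum) with h | h
    · rw [h.neg_one_pow, h.neg_one_pow, one_mul, one_mul]
    · rw [h.neg_one_pow, h.neg_one_pow, neg_one_mul, neg_one_mul, map_neg, Nov.neg_apply]

theorem toR_star (f g : ℕ → B → List X.Ins → ℂ) (l : List X.Ins) :
    toR (star f g) l = sp (fun a b => toR f a * toR g b) l := by
  ext j
  funext d
  rw [coeff_toR, coeff_sp]
  have : ∀ a b, (PowerSeries.coeff j (toR f a * toR g b)) d =
      ∑ gg ∈ Finset.HasAntidiagonal.antidiagonal j, ∑ dd ∈ Finset.HasAntidiagonal.antidiagonal d,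
        f gg.1 dd.1 a * g gg.2 dd.2 b := by
    intro a b
    rw [PowerSeries.coeff_mul, Nov.sum_apply']
    refine Finset.sum_congr rfl fun gg _ => ?_
    rw [Nov.mul_apply]
    refine Finset.sum_congr rfl fun dd _ => ?_
    rw [coeff_toR, coeff_toR]
  simp only [this]
  rw [splitSum_sum]
  refine Finset.sum_congr rfl fun gg _ => ?_
  rw [splitSum_sum]

theorem star_assoc (f g h : ℕ → B → List X.Ins → ℂ) :
    star (star f g) h = star f (star g h) := by
  apply toR_injective
  intro l
  rw [toR_star, toR_star]
  have h1 : ∀ a b, toR (star f g) a * toR h b = sp (fun a₁ a₂ => toR f a₁ * toR g a₂ * toR h b) a := by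
    intro a b
    rw [toR_star, mul_comm, ← sp_mul]
    exact sp_congr' fun a₁ a₂ => by ring
  have h2 : ∀ a b, toR f a * toR (star g h) b = sp (fun b₁ b₂ => toR f a * toR g b₁ * toR h b₂) b := by
    intro a b
    rw [toR_star, ← sp_mul]
    exact sp_congr' fun a₁ a₂ => by ring
  simp only [h1, h2]
  exact (sp_assoc (fun a b c => toR f a * toR g b * toR h c) l).symm

/-- homogeneous of parity `n` -/
def HomP (n : ℕ) (f : ℕ → B → List X.Ins → ℂ) : Prop :=
  ∀ j d l, f j d l ≠ 0 → Even ((l.map X.par).sum + n)

theorem star_comm {a b : ℕ} {f g : ℕ → B → List X.Ins → ℂ} (hf : HomP a f) (hg : HomP b g) :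
    star f g = fun j d l => (-1) ^ (a * b) * star g f j d l := by
  apply toR_injective
  intro l
  rw [toR_star, sp_comm]
  have h0 : toR (fun j d l => (-1) ^ (a * b) * star g f j d l) l =
      (-1) ^ (a * b) * toR (star g f) l := by
    ext j
    funext d
    rw [coeff_toR]
    rcases Nat.even_or_odd (a * b) with h | h
    · rw [h.neg_one_pow, h.neg_one_pow, one_mul, one_mul, coeff_toR]
    · rw [h.neg_one_pow, h.neg_one_pow, neg_one_mul, neg_one_mul, map_neg, Nov.neg_apply,
        coeff_toR]
  rw [h0, toR_star, ← sp_mul]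
  refine sp_congr' fun u v => ?_
  have key : (-1 : PowerSeries (Nov B)) ^ (pl u * pl v) * (toR f v * toR g u) =
      (-1) ^ (a * b) * (toR f v * toR g u) := by
    by_cases hu : Even (pl u + b)
    · by_cases hv : Even (pl v + a)
      · congr 1
        rw [← sub_eq_zero]
        rcases Nat.even_or_odd (a * b) with h | h
        · have : Even (pl u * pl v) := by
            rw [Nat.even_add] at hu hv
            rw [Nat.even_mul] at h ⊢
            tauto
          rw [h.neg_one_pow, this.neg_one_pow, sub_self]
        · have : Odd (pl u * pl v) := by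
            rw [Nat.even_add] at hu hv
            rw [← Nat.not_even_iff_odd, Nat.even_mul] at h ⊢
            tauto
          rw [h.neg_one_pow, this.neg_one_pow, sub_self]
      · have : toR f v = 0 := by
          ext j
          funext d
          rw [coeff_toR]
          by_contra hne
          exact hv (hf j d v hne)
        rw [this]
        simp
    · have : toR g u = 0 := by
        ext j
        funext d
        rw [coeff_toR]
        by_contra hne
        exact hu (hg j d u hne)
      rw [this]
      simp
  rw [key, mul_comm (toR f v)]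

theorem splitSum_parity {f : List X.Ins → List X.Ins → ℂ} {l : List X.Ins}
    (h : X.splitSum f l ≠ 0) :
    ∃ a b, f a b ≠ 0 ∧ (a.map X.par).sum + (b.map X.par).sum = (l.map X.par).sum := by
  induction l generalizing f with
  | nil => exact ⟨[], [], h, rfl⟩
  | cons x l ih =>
    rw [splitSum_cons] at h
    by_cases h1 : X.splitSum (fun l₁ l₂ => f (x :: l₁) l₂) l = 0
    · rw [h1, zero_add] at h
      obtain ⟨a, b, h2, h3⟩ := ih h
      refine ⟨a, x :: b, right_ne_zero_of_mul h2, ?_⟩
      simp only [List.map_cons, List.sum_cons, ← h3]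
      ring
    · obtain ⟨a, b, h2, h3⟩ := ih h1
      refine ⟨x :: a, b, h2, ?_⟩
      simp only [List.map_cons, List.sum_cons, ← h3]
      ring

theorem HomP.star {a b : ℕ} {f g : ℕ → B → List X.Ins → ℂ} (hf : HomP a f) (hg : HomP b g) :
    HomP (a + b) (star f g) := by
  intro j d l h
  unfold Vale.Agent.P269.star at h
  obtain ⟨gg, -, h1⟩ := Finset.exists_ne_zero_of_sum_ne_zero h
  obtain ⟨dd, -, h2⟩ := Finset.exists_ne_zero_of_sum_ne_zero h1
  obtain ⟨u, v, h3, h4⟩ := splitSum_parity h2
  have h5 := hf _ _ _ (left_ne_zero_of_mul h3)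
  have h6 := hg _ _ _ (right_ne_zero_of_mul h3)
  rw [Nat.even_iff] at *
  omega

theorem HomP.cons {a : ℕ} {f : ℕ → B → List X.Ins → ℂ} (hf : HomP a f) (x : X.Ins) :
    HomP (X.par x + a) (fun j d l => f j d (x :: l)) := by
  intro j d l h
  have := hf _ _ _ h
  simp only [List.map_cons, List.sum_cons] at this
  rw [Nat.even_iff] at *
  omega

theorem HomP.congr {a b : ℕ} {f : ℕ → B → List X.Ins → ℂ} (hf : HomP a f) (h : Even (a + b)) :
    HomP b f := by
  intro j d l hne
  have := hf _ _ _ hne
  rw [Nat.even_iff] at *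
  omega

/-- Leibniz rule -/
theorem star_cons {a : ℕ} {f : ℕ → B → List X.Ins → ℂ} (hf : HomP a f)
    (g : ℕ → B → List X.Ins → ℂ) (j : ℕ) (d : B) (x : X.Ins) (l : List X.Ins) :
    star f g j d (x :: l) = star (fun j d l => f j d (x :: l)) g j d l +
      (-1) ^ (X.par x * a) * star f (fun j d l => g j d (x :: l)) j d l := by
  unfold star
  rw [Finset.mul_sum, ← Finset.sum_add_distrib]
  refine Finset.sum_congr rfl fun gg _ => ?_
  rw [Finset.mul_sum, ← Finset.sum_add_distrib]
  refine Finset.sum_congr rfl fun dd _ => ?_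
  rw [splitSum_cons, ← splitSum_smul]
  congr 2
  funext u v
  by_cases h : f gg.1 dd.1 u = 0
  · rw [h]; simp
  · have h1 := hf _ _ _ h
    congr 1
    rw [mul_comm, mul_comm _ a]
    exact neg_one_pow_mul_congr h1

theorem star_left_comm {a b : ℕ} {f g : ℕ → B → List X.Ins → ℂ} (hf : HomP a f) (hg : HomP b g)
    (h : ℕ → B → List X.Ins → ℂ) :
    star f (star g h) = fun j d l => (-1) ^ (a * b) * star g (star f h) j d l := by
  rw [← star_assoc, star_comm hf hg, ← star_assoc]
  funext j d l
  unfold star
  rw [Finset.mul_sum]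
  refine Finset.sum_congr rfl fun gg _ => ?_
  rw [Finset.mul_sum]
  refine Finset.sum_congr rfl fun dd _ => ?_
  rw [← splitSum_smul]
  congr 1
  funext u v
  ring

theorem star_zero_left (g : ℕ → B → List X.Ins → ℂ) (j : ℕ) (d : B) (l : List X.Ins) :
    star (fun _ _ _ => 0) g j d l = 0 := by
  simp [star, splitSum_zero]

theorem star_add_left (f f' g : ℕ → B → List X.Ins → ℂ) (j : ℕ) (d : B) (l : List X.Ins) :
    star (fun j d l => f j d l + f' j d l) g j d l = star f g j d l + star f' g j d l := by
  simp only [star, add_mul, splitSum_add, Finset.sum_add_distrib]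

theorem star_smul_left (c : ℂ) (f g : ℕ → B → List X.Ins → ℂ) (j : ℕ) (d : B) (l : List X.Ins) :
    star (fun j d l => c * f j d l) g j d l = c * star f g j d l := by
  simp only [star, mul_assoc, splitSum_smul, Finset.mul_sum]

theorem star_smul_right (c : ℂ) (f g : ℕ → B → List X.Ins → ℂ) (j : ℕ) (d : B) (l : List X.Ins) :
    star f (fun j d l => c * g j d l) j d l = c * star f g j d l := by
  simp only [star, mul_left_comm, splitSum_smul, Finset.mul_sum]

end Vale.Agent.P269
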