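import Vale.Agent.P269.CIDefs

/-! Second-order expansion at `y = -1` of Hirzebruch's generating function. -/

namespace Vale.Agent.P269.LW

open PowerSeries

/-- `y ↦ s - 1`. -/
noncomputable def sh : Polynomial ℤ →+* Polynomial ℂ :=
  Polynomial.eval₂RingHom (Int.castRingHom _) (Polynomial.X - 1)

/-- The coefficient of `s^k`. -/
noncomputable def cc (k : ℕ) (F : PowerSeries (Polynomial ℂ)) : PowerSeries ℂ :=
  PowerSeries.mk fun n => (coeff n F).coeff k

theorem cc_add (k : ℕ) (F G : PowerSeries (Polynomial ℂ)) : cc k (F + G) = cc k F + cc k G := by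
  ext n
  simp [cc]

theorem cc_mul (k : ℕ) (F G : PowerSeries (Polynomial ℂ)) :
    cc k (F * G) = ∑ ab ∈ Finset.HasAntidiagonal.antidiagonal k, cc ab.1 F * cc ab.2 G := by
  ext n
  rw [map_sum]
  simp only [cc, coeff_mk, coeff_mul]
  rw [Polynomial.finsetSum_coeff]
  simp only [Polynomial.coeff_mul]
  rw [Finset.sum_comm]

theorem cc_mul_zero (F G : PowerSeries (Polynomial ℂ)) :
    cc 0 (F * G) = cc 0 F * cc 0 G := by
  rw [cc_mul]; simp

theorem cc_mul_one (F G : PowerSeries (Polynomial ℂ)) :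
    cc 1 (F * G) = cc 0 F * cc 1 G + cc 1 F * cc 0 G := by
  rw [cc_mul, Finset.Nat.sum_antidiagonal_succ]; simp

theorem cc_mul_two (F G : PowerSeries (Polynomial ℂ)) :
    cc 2 (F * G) = cc 0 F * cc 2 G + cc 1 F * cc 1 G + cc 2 F * cc 0 G := by
  rw [cc_mul, Finset.Nat.sum_antidiagonal_succ, Finset.Nat.sum_antidiagonal_succ]
  simp
  ring

/-- A power series with coefficients constant in `s`. -/
noncomputable def con (f : PowerSeries ℂ) : PowerSeries (Polynomial ℂ) :=
  PowerSeries.map Polynomial.C f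

theorem cc_con_zero (f : PowerSeries ℂ) : cc 0 (con f) = f := by
  ext n; simp [cc, con]

theorem cc_con_one (f : PowerSeries ℂ) : cc 1 (con f) = 0 := by
  ext n; simp [cc, con]

theorem cc_con_two (f : PowerSeries ℂ) : cc 2 (con f) = 0 := by
  ext n; simp [cc, con]

theorem con_one_sub_X : con (1 - X) = 1 - X := by
  simp [con]

theorem con_X : con X = X := by simp [con]

/-- The image of `1 + zy`. -/
noncomputable def V : PowerSeries (Polynomial ℂ) := PowerSeries.map sh (1 + C Polynomial.X * X)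

theorem V_eq : V = con (1 - X) + C Polynomial.X * con X := by
  rw [con_one_sub_X, con_X, V]
  simp only [map_add, map_mul, map_one, PowerSeries.map_C, PowerSeries.map_X]
  have : sh Polynomial.X = Polynomial.X - 1 := by simp [sh]
  rw [this, map_sub, map_one]
  ring

theorem cc_sX (k : ℕ) : cc k (C Polynomial.X * con X) = if k = 1 then X else 0 := by
  ext n
  rw [con_X]
  simp only [cc, coeff_mk]
  cases n with
  | zero => split_ifs <;> simp
  | succ n =>
    rw [mul_comm, coeff_succ_X_mul, PowerSeries.coeff_C]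
    by_cases hn : n = 0
    · subst hn
      by_cases hk : k = 1
      · subst hk; simp
      · simp [hk, Polynomial.coeff_X, Ne.symm hk]
    · by_cases hk : k = 1
      · subst hk; simp [hn, coeff_X]
      · simp [hn, hk]

theorem cc_V_zero : cc 0 V = 1 - X := by
  rw [V_eq, cc_add, cc_con_zero, cc_sX]; simp

theorem cc_V_one : cc 1 V = X := by
  rw [V_eq, cc_add, cc_con_one, cc_sX]; simp

theorem cc_V_two : cc 2 V = 0 := by
  rw [V_eq, cc_add, cc_con_two, cc_sX]; simp

/-- inverse of `1 - z` -/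
noncomputable def ui : PowerSeries ℂ := invOfUnit (1 - X) 1

theorem u_ui : (1 - X) * ui = 1 := mul_invOfUnit _ _ (by simp)

/-- `v = z/(1-z)` -/
noncomputable def v : PowerSeries ℂ := X * ui

theorem v_u : v * (1 - X) = X := by
  rw [v, mul_assoc, mul_comm ui, u_ui, mul_one]

/-- The image of `hirzA d`. -/
noncomputable def A (d : ℕ) : PowerSeries (Polynomial ℂ) := PowerSeries.map sh (hirzA d)

theorem A_zero : A 0 = 0 := by simp [A, hirzA]

theorem A_eq (d : ℕ) :
    A d = X * ∑ j ∈ Finset.range d, V ^ j * (1 - X) ^ (d - 1 - j) := by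
  simp only [A, hirzA, V, map_mul, map_sum, map_pow, map_sub, map_one, PowerSeries.map_X]

theorem A_succ (d : ℕ) : A (d + 1) = V * A d + con (X * (1 - X) ^ d) := by
  have h1 : con (X * (1 - X) ^ d) = X * (1 - X) ^ d := by
    simp [con]
  have h2 : ∑ j ∈ Finset.range d, V ^ (j + 1) * (1 - X) ^ (d + 1 - 1 - (j + 1)) =
      V * ∑ j ∈ Finset.range d, V ^ j * (1 - X) ^ (d - 1 - j) := by
    rw [Finset.mul_sum]
    refine Finset.sum_congr rfl fun j _ => ?_
    rw [show d + 1 - 1 - (j + 1) = d - 1 - j by omega]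
    ring
  rw [h1, A_eq, A_eq, Finset.sum_range_succ', h2]
  simp only [Nat.add_sub_cancel, Nat.sub_zero, pow_zero, one_mul]
  ring

theorem cc_A (d : ℕ) : cc 0 (A d) = (d : PowerSeries ℂ) * v * (1 - X) ^ d ∧
    2 * cc 1 (A d) = (d : PowerSeries ℂ) * ((d : PowerSeries ℂ) - 1) * v ^ 2 * (1 - X) ^ d ∧
    6 * cc 2 (A d) = (d : PowerSeries ℂ) * ((d : PowerSeries ℂ) - 1) *
      ((d : PowerSeries ℂ) - 2) * v ^ 3 * (1 - X) ^ d := by
  induction d with
  | zero =>
    have h0 : ∀ k, cc k (A 0) = 0 := by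
      intro k
      rw [A_zero]
      ext n
      simp [cc]
    simp [h0]
  | succ d ih =>
    obtain ⟨h0, h1, h2⟩ := ih
    rw [A_succ, cc_add, cc_add, cc_add, cc_mul_zero, cc_mul_one, cc_mul_two, cc_con_zero,
      cc_con_one, cc_con_two, cc_V_zero, cc_V_one, cc_V_two, h0]
    have hx := v_u
    refine ⟨?_, ?_, ?_⟩
    · push_cast
      linear_combination (-(1 - X : PowerSeries ℂ) ^ d) * hx
    · push_cast
      linear_combination (1 - X : PowerSeries ℂ) * h1 - (2 * (d : PowerSeries ℂ) * v *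
        (1 - X) ^ d) * hx
    · push_cast
      linear_combination (1 - X : PowerSeries ℂ) * h2 + 3 * X * h1 -
        (3 * (d : PowerSeries ℂ) * ((d : PowerSeries ℂ) - 1) * v ^ 2 * (1 - X) ^ d) * hx

end Vale.Agent.P269.LW
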