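import Vale.Agent.P269.H727.Jets

/-! Jets of the factors of Hirzebruch's generating function. -/

namespace Vale.Agent.P269.LW

open PowerSeries

/-- `F = f (1 + (L/2) s + (3 L² + T)/24 s² + …)`. -/
def Jet (F : PowerSeries (Polynomial ℂ)) (f L T : PowerSeries ℂ) : Prop :=
  cc 0 F = f ∧ 2 * cc 1 F = f * L ∧ 24 * cc 2 F = f * (3 * L ^ 2 + T)

theorem Jet.mul {F G : PowerSeries (Polynomial ℂ)} {f L T g L' T' : PowerSeries ℂ}
    (hF : Jet F f L T) (hG : Jet G g L' T') : Jet (F * G) (f * g) (L + L') (T + T') := by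
  obtain ⟨a0, a1, a2⟩ := hF
  obtain ⟨b0, b1, b2⟩ := hG
  refine ⟨?_, ?_, ?_⟩
  · rw [cc_mul_zero, a0, b0]
  · rw [cc_mul_one, a0, b0]
    linear_combination f * b1 + g * a1
  · rw [cc_mul_two, a0, b0]
    linear_combination f * b2 + g * a2 + 6 * (2 * cc 1 F) * b1 + 6 * g * L' * a1

theorem Jet.one : Jet 1 1 0 0 := by
  have h : (1 : PowerSeries (Polynomial ℂ)) = con 1 := by simp [con]
  rw [h]
  refine ⟨cc_con_zero 1, ?_, ?_⟩
  · rw [cc_con_one]; simp
  · rw [cc_con_two]; simp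

theorem constantCoeff_v : constantCoeff v = 0 := by simp [v]

/-- `e d = 1/(1 + d v)` -/
noncomputable def e (d : ℕ) : PowerSeries ℂ := invOfUnit (1 + (d : PowerSeries ℂ) * v) 1

theorem e_mul (d : ℕ) : (1 + (d : PowerSeries ℂ) * v) * e d = 1 :=
  mul_invOfUnit _ _ (by simp [constantCoeff_v])

/-- `b d = (d-1) v / (1 + d v)` -/
noncomputable def b (d : ℕ) : PowerSeries ℂ := ((d : PowerSeries ℂ) - 1) * v * e d

/-- `r d = d v / (1 + d v)` -/
noncomputable def r (d : ℕ) : PowerSeries ℂ := (d : PowerSeries ℂ) * v * e d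

theorem constantCoeff_hirzB (d : ℕ) : constantCoeff (hirzB d) = 1 := by
  simp [hirzB, hirzA]

theorem cancel_u (d : ℕ) {x y : PowerSeries ℂ} (h : (1 - X) ^ d * x = (1 - X) ^ d * y) :
    x = y := by
  have h1 : ui ^ d * (1 - X) ^ d = 1 := by
    rw [← mul_pow, mul_comm, u_ui, one_pow]
  calc x = (ui ^ d * (1 - X) ^ d) * x := by rw [h1, one_mul]
    _ = (ui ^ d * (1 - X) ^ d) * y := by rw [mul_assoc, h, ← mul_assoc]
    _ = y := by rw [h1, one_mul]

theorem jet_factor (d : ℕ) :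
    Jet (PowerSeries.map sh (hirzA d * invOfUnit (hirzB d) 1)) (r d) (b d)
      (3 * b d ^ 2 - 2 * ((d : PowerSeries ℂ) + 1) * v * b d) := by
  set F := PowerSeries.map sh (hirzA d * invOfUnit (hirzB d) 1) with hF
  have h1 : F * (con ((1 - X) ^ d) + A d) = A d := by
    have h2 : (hirzA d * invOfUnit (hirzB d) 1) * hirzB d = hirzA d := by
      rw [mul_assoc, invOfUnit_mul _ _ (by rw [constantCoeff_hirzB]; simp), mul_one]
    have h3 : PowerSeries.map sh (hirzB d) = con ((1 - X) ^ d) + A d := by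
      rw [hirzB, A, map_add]
      simp [con]
    rw [← h3, hF, ← map_mul, h2]
    rfl
  obtain ⟨a0, a1, a2⟩ := cc_A d
  have he := e_mul d
  have k0 := congrArg (cc 0) h1
  have k1 := congrArg (cc 1) h1
  have k2 := congrArg (cc 2) h1
  rw [cc_mul_zero, cc_add, cc_con_zero, a0] at k0
  rw [cc_mul_one, cc_add, cc_add, cc_con_zero, cc_con_one, a0] at k1
  rw [cc_mul_two, cc_add, cc_add, cc_add, cc_con_zero, cc_con_one, cc_con_two, a0] at k2
  have r0 : cc 0 F = r d := by
    have h4 : cc 0 F * (1 + (d : PowerSeries ℂ) * v) = (d : PowerSeries ℂ) * v := by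
      apply cancel_u d
      linear_combination k0
    unfold r
    linear_combination (e d) * h4 - (cc 0 F) * he
  have hr : 1 - r d = e d := by
    unfold r
    linear_combination (-1 : PowerSeries ℂ) * he
  have r1 : 2 * cc 1 F = r d * b d := by
    have h4 : 2 * cc 1 F * (1 + (d : PowerSeries ℂ) * v) =
        (d : PowerSeries ℂ) * ((d : PowerSeries ℂ) - 1) * v ^ 2 * e d := by
      apply cancel_u d
      rw [r0] at k1
      linear_combination 2 * k1 + (1 - r d) * a1 + ((1 - X) ^ d *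
        ((d : PowerSeries ℂ) * ((d : PowerSeries ℂ) - 1) * v ^ 2)) * hr
    unfold r b
    linear_combination (e d) * h4 - (2 * cc 1 F) * he
  refine ⟨r0, r1, ?_⟩
  have h4 : 24 * cc 2 F * (1 + (d : PowerSeries ℂ) * v) =
      4 * ((d : PowerSeries ℂ) * ((d : PowerSeries ℂ) - 1) * ((d : PowerSeries ℂ) - 2) *
        v ^ 3) * e d - 6 * (r d * b d) *
        ((d : PowerSeries ℂ) * ((d : PowerSeries ℂ) - 1) * v ^ 2) := by
    apply cancel_u d
    rw [r0] at k2
    linear_combination 24 * k2 + 4 * (1 - r d) * a2 - 6 * (2 * cc 1 F) * a1 -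
      6 * ((d : PowerSeries ℂ) * ((d : PowerSeries ℂ) - 1) * v ^ 2 * (1 - X) ^ d) * r1 +
      4 * ((d : PowerSeries ℂ) * ((d : PowerSeries ℂ) - 1) * ((d : PowerSeries ℂ) - 2) * v ^ 3 *
        (1 - X) ^ d) * hr
  have h5 : 24 * cc 2 F = e d * (4 * ((d : PowerSeries ℂ) * ((d : PowerSeries ℂ) - 1) *
      ((d : PowerSeries ℂ) - 2) * v ^ 3) * e d - 6 * (r d * b d) *
        ((d : PowerSeries ℂ) * ((d : PowerSeries ℂ) - 1) * v ^ 2)) := by
    linear_combination (e d) * h4 - (24 * cc 2 F) * he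
  rw [h5]
  unfold r b
  linear_combination (-6 * (d : PowerSeries ℂ) * ((d : PowerSeries ℂ) - 1) ^ 2 * v ^ 3 *
    e d ^ 2) * he

theorem jet_prefactor :
    Jet (PowerSeries.map sh (invOfUnit ((1 - X) * (1 + C Polynomial.X * X)) 1)) (ui ^ 2)
      (-2 * v) (12 * v ^ 2) := by
  set F := PowerSeries.map sh (invOfUnit ((1 - X) * (1 + C Polynomial.X * X)) 1) with hF
  have h1 : F * (con (1 - X) * V) = 1 := by
    have h2 : invOfUnit ((1 - X) * (1 + C Polynomial.X * X)) 1 *
        ((1 - X) * (1 + C Polynomial.X * X)) = (1 : PowerSeries (Polynomial ℤ)) :=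
      invOfUnit_mul _ _ (by simp)
    have h3 : PowerSeries.map sh ((1 - X) * (1 + C Polynomial.X * X)) = con (1 - X) * V := by
      rw [map_mul, V, con_one_sub_X]
      simp
    rw [← h3, hF, ← map_mul, h2, map_one]
  have hone : (1 : PowerSeries (Polynomial ℂ)) = con 1 := by simp [con]
  rw [hone] at h1
  have k0 := congrArg (cc 0) h1
  have k1 := congrArg (cc 1) h1
  have k2 := congrArg (cc 2) h1
  rw [cc_mul_zero, cc_mul_zero, cc_con_zero, cc_con_zero, cc_V_zero] at k0
  rw [cc_mul_one, cc_mul_zero, cc_mul_one, cc_con_zero, cc_con_one, cc_con_one, cc_V_zero,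
    cc_V_one] at k1
  rw [cc_mul_two, cc_mul_zero, cc_mul_one, cc_mul_two, cc_con_zero, cc_con_one, cc_con_two,
    cc_con_two, cc_V_zero, cc_V_one, cc_V_two] at k2
  have hu := u_ui
  have hv := v_u
  have r0 : cc 0 F = ui ^ 2 := by
    linear_combination ui ^ 2 * k0 - (cc 0 F * (1 + (1 - X) * ui)) * hu
  have r1 : cc 1 F = - (ui ^ 2 * v) := by
    apply cancel_u 2
    rw [r0] at k1
    linear_combination k1 + (1 - X) * ui ^ 2 * hv
  refine ⟨r0, by rw [r1]; ring, ?_⟩
  have r2 : cc 2 F = ui ^ 2 * v ^ 2 := by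
    apply cancel_u 2
    rw [r0, r1] at k2
    linear_combination k2 - ((1 - X) * ui ^ 2 * v) * hv
  rw [r2]
  ring

/-- The 2-jet of the whole generating function. -/
theorem jet_chiY (deg : List ℕ) :
    Jet (PowerSeries.map sh (invOfUnit ((1 - X) * (1 + C Polynomial.X * X)) 1 *
      (deg.map fun d => hirzA d * invOfUnit (hirzB d) 1).prod))
      (ui ^ 2 * (deg.map r).prod) (-2 * v + (deg.map b).sum)
      (12 * v ^ 2 + (deg.map fun d =>
        3 * b d ^ 2 - 2 * ((d : PowerSeries ℂ) + 1) * v * b d).sum) := by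
  rw [map_mul]
  refine jet_prefactor.mul ?_
  induction deg with
  | nil => simpa using Jet.one
  | cons d deg ih =>
    simp only [List.map_cons, List.prod_cons, List.sum_cons, map_mul (PowerSeries.map sh)] at ih ⊢
    have := (jet_factor d).mul ih
    rwa [map_mul] at this

end Vale.Agent.P269.LW
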