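import Vale.Agent.P269.H727.Ops

/-! The constraints `L_{-1}` and `L_0`. -/

namespace Vale.Agent.P269

namespace Cohomology

variable {X : Cohomology}

theorem vir_zero (x : X.Ins) (f : X.Ins → ℂ) : X.vir 0 x f = X.low x f := by
  obtain ⟨m, a⟩ := x
  cases m with
  | zero => simp [vir, low]
  | succ m =>
    simp only [vir, low, zero_add, Finset.range_one, Finset.sum_singleton, br_zero, if_true,
      pow_zero, one_mul, add_zero]
    rw [if_pos (Nat.succ_pos m), if_neg (Nat.succ_ne_zero m)]
    simp [Matrix.one_apply]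

theorem br_one_zero (x : ℂ) : br x 1 0 = x := by simp [br]

theorem br_one_one (x : ℂ) : br x 1 1 = 1 := by simp [br]

theorem vir_one (x : X.Ins) (f : X.Ins → ℂ) :
    X.vir 1 x f = (X.μ x.2 + x.1 + 1 / 2) * f x + X.lowR x f := by
  obtain ⟨m, a⟩ := x
  unfold vir
  rw [Finset.sum_range_succ, Finset.sum_range_one, br_one_zero, br_one_one, if_pos (by omega)]
  congr 1
  · simp [Matrix.one_apply]
  · cases m with
    | zero => simp [lowR]
    | succ m => simp [lowR]

theorem derive_vir_one (F : List X.Ins → ℂ) (l : List X.Ins) :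
    X.derive (X.vir 1) F l =
      (l.map fun x => (X.μ x.2 + x.1 + 1 / 2)).sum * F l + X.derive X.lowR F l := by
  induction l generalizing F with
  | nil => simp [derive_nil]
  | cons x l ih =>
    rw [derive_cons, derive_cons, ih (fun l' => F (x :: l')), vir_one, List.map_cons,
      List.sum_cons]
    ring

end Cohomology

namespace GWTheory

open Cohomology

variable {X : Cohomology} {B : Type} [AddCommMonoid B] [DecidableEq B] [Finset.HasAntidiagonal B]
  (G : GWTheory X B)

/-- `L_{-1}` is the string equation. -/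
theorem virasoro_zero (g : ℕ) (d : B) (l : List X.Ins) : G.virasoro 0 g d l = 0 := by
  unfold virasoro
  have h1 : X.vir 0 (1, X.one) (fun y => G.corr g d (y :: l)) = G.corr g d ((0, X.one) :: l) := by
    rw [vir_zero]; simp [low]
  have h2 : X.derive (X.vir 0) (G.corr g d) l = X.derive X.low (G.corr g d) l := by
    unfold derive
    exact Finset.sum_congr rfl fun j _ => vir_zero _ _
  have h3 : X.quad 0 (G.second g d l) = 0 := by simp [quad]
  rw [h1, h2, h3, G.string]
  simp

theorem sum_mu (g : ℕ) (d : B) (l : List X.Ins) (h : G.corr g d l ≠ 0) :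
    (l.map fun x => (X.μ x.2 + x.1 + 1 / 2)).sum =
      (1 - g) * (X.D - 3) + G.c1 d + l.length * (3 - X.D) / 2 := by
  have h1 := G.dim_p g d l h
  have h2 : (l.map fun x => (X.μ x.2 + x.1 + 1 / 2)).sum =
      (((l.map fun x => (x.1 + X.p x.2 : ℤ)).sum : ℤ) : ℂ) + l.length * (1 - X.D) / 2 := by
    clear h1 h
    induction l with
    | nil => simp
    | cons x l ih =>
      rw [List.map_cons, List.sum_cons, ih, List.map_cons, List.sum_cons, List.length_cons]
      unfold μ
      push_cast
      ring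
  rw [h2, h1]
  push_cast
  ring

/-- `L_0`, up to the constant in genus `1`. -/
theorem virasoro_one_aux (g : ℕ) (d : B) (l : List X.Ins) :
    G.virasoro 1 g d l = if g = 1 ∧ d = 0 ∧ l = [] then
      (X.D * X.χ / 12 + G.c1cD / 6 - X.strμ2) / 4 else 0 := by
  unfold virasoro
  have h3 : X.quad 1 (G.second g d l) = 0 := by simp [quad]
  rw [vir_one, derive_vir_one, h3, pow_one]
  have h4 : X.lowR (1, X.one) (fun y => G.corr g d (y :: l)) =
      ∑ b, X.R X.one b * G.corr g d ((0, b) :: l) := by simp [lowR]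
  rw [h4, G.divisor, G.dilaton]
  have h5 : (l.map fun x => (X.μ x.2 + x.1 + 1 / 2)).sum * G.corr g d l =
      ((1 - g) * (X.D - 3) + G.c1 d + l.length * (3 - X.D) / 2) * G.corr g d l := by
    by_cases h : G.corr g d l = 0
    · rw [h]; simp
    · rw [G.sum_mu g d l h]
  rw [h5]
  have h6 : X.μ X.one = - X.D / 2 := by
    unfold μ; rw [X.p_one]; simp; ring
  simp only [h6]
  by_cases hc : g = 1 ∧ d = 0 ∧ l = []
  · have hc2 : (True ∧ g = 1 ∧ d = 0 ∧ l = []) := ⟨trivial, hc⟩
    rw [if_pos hc2, if_pos hc, if_pos hc, if_pos hc]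
    obtain ⟨rfl, rfl, rfl⟩ := hc
    simp
    ring
  · have hc2 : ¬ (True ∧ g = 1 ∧ d = 0 ∧ l = []) := fun h => hc h.2
    rw [if_neg hc2, if_neg hc, if_neg hc, if_neg hc]
    push_cast
    ring

theorem virasoro_one_of_ne (g : ℕ) (d : B) (l : List X.Ins) (h : ¬ (g = 1 ∧ d = 0 ∧ l = [])) :
    G.virasoro 1 g d l = 0 := by
  rw [virasoro_one_aux, if_neg h]

theorem virasoro_one (hLW : X.strμ2 = X.D * X.χ / 12 + G.c1cD / 6)
    (g : ℕ) (d : B) (l : List X.Ins) : G.virasoro 1 g d l = 0 := by
  rw [virasoro_one_aux]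
  split_ifs
  · rw [hLW]; ring
  · rfl

end GWTheory

end Vale.Agent.P269
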