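import Vale.Agent.P269.H727.Chern

/-! The Libgober-Wood identity `str(μ²) = D χ/12 + (1/6) ∫ c_1 c_{D-1}` for complete
intersections. -/

namespace Vale.Agent.P269.LW

open PowerSeries

theorem sh_coeff (f : Polynomial ℤ) (k M : ℕ) (hM : f.natDegree < M) :
    (sh f).coeff k =
      ∑ r ∈ Finset.range M, (f.coeff r : ℂ) * ((-1) ^ (r - k) * (r.choose k : ℂ)) := by
  have h1 : sh f = ∑ r ∈ Finset.range M, (Int.castRingHom (Polynomial ℂ)) (f.coeff r) *
      (Polynomial.X - 1) ^ r := Polynomial.eval₂_eq_sum_range' _ hM _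
  rw [h1, Polynomial.finsetSum_coeff]
  refine Finset.sum_congr rfl fun r _ => ?_
  have h2 : (Int.castRingHom (Polynomial ℂ)) (f.coeff r) = Polynomial.C (f.coeff r : ℂ) := by
    simp
  rw [h2, Polynomial.coeff_C_mul]
  congr 1
  have h3 := Polynomial.coeff_X_add_C_pow (-1 : ℂ) r k
  rw [map_neg, map_one, ← sub_eq_add_neg] at h3
  exact h3

theorem sum_fiber (Y : Cohomology) (N : ℕ) (deg : List ℕ) (hY : IsCompleteIntersection N deg Y)
    (g : ℕ → ℂ) (M : ℕ) (hM : ∀ a, Y.p a < M) :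
    ∑ a, (-1 : ℂ) ^ (Y.p a + Y.q a) * g (Y.p a) =
      ∑ r ∈ Finset.range M, (-1) ^ r * g r * ((chiY N deg).coeff r : ℂ) := by
  rw [← Finset.sum_fiberwise_of_maps_to (s := Finset.univ) (t := Finset.range M) (g := Y.p)
    (fun a _ => Finset.mem_range.2 (hM a))]
  refine Finset.sum_congr rfl fun r _ => ?_
  rw [← hY.hirzebruch r]
  push_cast
  rw [Finset.mul_sum]
  refine Finset.sum_congr rfl fun a ha => ?_
  rw [Finset.mem_filter] at ha
  rw [ha.2, pow_add]
  ring

theorem neg_one_pow_choose_one (r : ℕ) :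
    (-1 : ℂ) ^ (r - 1) * (r.choose 1 : ℂ) = - ((-1) ^ r * r) := by
  cases r with
  | zero => simp
  | succ r =>
    rw [Nat.choose_one_right, Nat.add_sub_cancel, pow_succ]
    ring

theorem neg_one_pow_choose_two (r : ℕ) :
    (-1 : ℂ) ^ (r - 2) * (r.choose 2 : ℂ) = (-1) ^ r * (r * (r - 1) / 2) := by
  rw [Nat.cast_choose_two]
  match r with
  | 0 => simp
  | 1 => simp
  | r + 2 =>
    rw [Nat.add_sub_cancel, pow_add]
    push_cast
    ring

theorem libgober_wood {N : ℕ} {deg : List ℕ} {Y : Cohomology}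
    (hY : IsCompleteIntersection N deg Y) (hD : 1 ≤ Y.D) :
    Y.strμ2 = Y.D * Y.χ / 12 + ((N : ℂ) + 1 - (deg.sum : ℕ)) * (hcD N deg : ℂ) / 6 := by
  set P := chiY N deg with hP
  obtain ⟨M, hM1, hM2⟩ : ∃ M, (∀ a, Y.p a < M) ∧ P.natDegree < M := by
    refine ⟨(Finset.univ.sup Y.p) + P.natDegree + 1, fun a => ?_, by omega⟩
    have := Finset.le_sup (f := Y.p) (Finset.mem_univ a)
    omega
  have t0 := sh_coeff P 0 M hM2
  have t1 := sh_coeff P 1 M hM2
  have t2 := sh_coeff P 2 M hM2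
  simp only [neg_one_pow_choose_one] at t1
  simp only [neg_one_pow_choose_two] at t2
  simp only [Nat.sub_zero, Nat.choose_zero_right, Nat.cast_one, mul_one] at t0
  -- the Euler characteristic
  have hχ : Y.χ = (sh P).coeff 0 := by
    rw [t0]
    have := sum_fiber Y N deg hY (fun _ => 1) M hM1
    simp only [mul_one] at this
    rw [Cohomology.χ, this]
    exact Finset.sum_congr rfl fun r _ => by ring
  have hs : Y.strμ2 = 2 * (sh P).coeff 2 + (Y.D - 1) * (sh P).coeff 1 +
      (Y.D : ℂ) ^ 2 / 4 * (sh P).coeff 0 := by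
    rw [t0, t1, t2]
    have := sum_fiber Y N deg hY (fun r => ((r : ℂ) - Y.D / 2) ^ 2) M hM1
    rw [Cohomology.strμ2]
    unfold Cohomology.μ
    rw [this, Finset.mul_sum, Finset.mul_sum, Finset.mul_sum, ← Finset.sum_add_distrib,
      ← Finset.sum_add_distrib]
    exact Finset.sum_congr rfl fun r _ => by ring
  -- jets
  obtain ⟨j0, j1, j2⟩ := jet_chiY deg
  set F := PowerSeries.map sh (invOfUnit ((1 - X) * (1 + C Polynomial.X * X)) 1 *
      (deg.map fun d => hirzA d * invOfUnit (hirzB d) 1).prod) with hF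
  have hc : ∀ k, coeff N (cc k F) = (sh P).coeff k := by
    intro k
    rw [cc, coeff_mk, hF, coeff_map]
    rfl
  have e0 := congrArg (coeff N) j0
  have e1 := congrArg (coeff N) j1
  have e2 := congrArg (coeff N) j2
  have hnat : ∀ (n : ℕ) (f : PowerSeries ℂ), coeff N ((n : PowerSeries ℂ) * f) =
      n * coeff N f := by
    intro n f
    have : (n : PowerSeries ℂ) = C (n : ℂ) := by simp
    rw [this, coeff_C_mul]
  have h2 : ∀ f : PowerSeries ℂ, coeff N (2 * f) = 2 * coeff N f := fun f => by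
    simpa using hnat 2 f
  have h3 : ∀ f : PowerSeries ℂ, coeff N (3 * f) = 3 * coeff N f := fun f => by
    simpa using hnat 3 f
  have h6 : ∀ f : PowerSeries ℂ, coeff N (6 * f) = 6 * coeff N f := fun f => by
    simpa using hnat 6 f
  have h24 : ∀ f : PowerSeries ℂ, coeff N (24 * f) = 24 * coeff N f := fun f => by
    simpa using hnat 24 f
  rw [hc] at e0
  rw [h2, hc] at e1
  rw [h24, hc] at e2
  have hm := congrArg (coeff N) (main_identity deg (deg.length : ℕ) ((deg.sum : ℕ) -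
    (deg.length : ℕ)) rfl rfl)
  have hvΦ := coeff_vΦ N deg (by have := hY.dim; omega)
  simp only [map_add, map_sub, map_zero, h2, h3, h6, coeff_θ, hnat, mul_assoc, sub_mul,
    one_mul] at hm
  change (sh P).coeff 0 = coeff N (Φ deg) at e0
  change 2 * (sh P).coeff 1 = coeff N (Φ deg * (-2 * v + (deg.map b).sum)) at e1
  change 24 * (sh P).coeff 2 = coeff N (Φ deg * _) at e2
  simp only [mul_assoc] at e2
  rw [← e0, ← e1, ← e2, hvΦ] at hm
  have hN : (N : ℂ) = Y.D + (deg.length : ℕ) := by exact_mod_cast hY.dim.symm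
  rw [hN] at hm
  rw [hs, hχ, hN]
  linear_combination (1 / 12 : ℂ) * hm

end Vale.Agent.P269.LW
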