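import Vale.Agent.P269.H727.Weight

/-! The induction: reduction of the Virasoro constraints in genus `≥ 1` to insertions
without `τ_0(1)`. -/

namespace Vale.Agent.P269

namespace Cohomology

variable {X : Cohomology}

/-- The only classes of degree `≤ 1` are the multiples of `1`. -/
def LowDegree (X : Cohomology) : Prop := ∀ a, X.p a + X.q a ≤ 1 → a = X.one

theorem wts_nonneg (hX : X.LowDegree) (l : List X.Ins) (hl : (0, X.one) ∉ l) : 0 ≤ X.wts l := by
  induction l with
  | nil => simp [wts_nil]
  | cons x l ih =>
    rw [List.mem_cons, not_or] at hl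
    have h1 := ih hl.2
    have h2 : 0 ≤ X.wt x := by
      by_contra hx
      apply hl.1
      unfold wt at hx
      have h3 : x.1 = 0 := by omega
      have h4 : X.p x.2 + X.q x.2 ≤ 1 := by omega
      exact (Prod.ext h3 (hX _ h4)).symm
    rw [wts_cons]
    omega

/-- An induction measure. -/
def size (X : Cohomology) (l : List X.Ins) : ℕ := (l.map fun x => x.1 + 1).sum

theorem size_cons (x : X.Ins) (l : List X.Ins) : X.size (x :: l) = x.1 + 1 + X.size l := rfl

theorem size_append (l₁ l₂ : List X.Ins) : X.size (l₁ ++ l₂) = X.size l₁ + X.size l₂ := by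
  simp [size]

theorem derive_low_eq_zero (F : List X.Ins → ℂ) (l : List X.Ins)
    (h : ∀ l', X.size l' < X.size l → F l' = 0) : X.derive X.low F l = 0 := by
  induction l generalizing F with
  | nil => exact derive_nil _ _
  | cons x l ih =>
    rw [derive_cons]
    have h1 : X.low x (fun y => F (y :: l)) = 0 := by
      obtain ⟨m, a⟩ := x
      cases m with
      | zero => rw [low_zero]
      | succ m =>
        rw [low_succ]
        apply h
        rw [size_cons, size_cons]
        simp only
        omega
    rw [h1, zero_add]
    apply ih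
    intro l' hl'
    apply h
    rw [size_cons, size_cons]
    omega

end Cohomology

namespace GWTheory

open Cohomology

variable {X : Cohomology} {B : Type} [AddCommMonoid B] [DecidableEq B] [Finset.HasAntidiagonal B]
  (G : GWTheory X B)

/-- In genus `≥ 1` and class `d`, all Virasoro constraints follow from `L_0` and from the finitely
many `L_k`, `1 ≤ k ≤ vdim`, on insertions without `τ_0(1)` of total weight `vdim - k`. -/
theorem virasoro_eq_zero_of_initial (hX : X.LowDegree) {g : ℕ} (hg : g ≠ 0) (d : B)
    (h1 : ∀ l, G.virasoro 1 g d l = 0)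
    (h2 : ∀ K : ℕ, 2 ≤ K → (K : ℤ) - 1 ≤ G.vdim g d → ∀ l : List X.Ins, (0, X.one) ∉ l →
      X.wts l = 2 * (G.vdim g d - (K - 1)) → G.virasoro K g d l = 0) :
    ∀ K l, G.virasoro K g d l = 0 := by
  intro K
  induction K with
  | zero => exact fun l => G.virasoro_zero g d l
  | succ K ih =>
    rcases Nat.eq_zero_or_pos K with rfl | hK
    · exact h1
    · intro l
      obtain ⟨n, hn⟩ : ∃ n, n = X.size l := ⟨_, rfl⟩
      induction n using Nat.strong_induction_on generalizing l with
      | _ n ihn =>
        by_cases hl : (0, X.one) ∈ l
        · obtain ⟨l₁, l₂, rfl⟩ := List.append_of_mem hl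
          rw [(G.virasoro_gsymm hg (by omega) d).move_even _ _ par_one, G.virasoro_string K g hg,
            ih, mul_zero, zero_add]
          apply derive_low_eq_zero
          intro l' hl'
          refine ihn (X.size l') ?_ l' rfl
          rw [hn, size_append, size_cons]
          rw [size_append] at hl'
          omega
        · by_contra hne
          have hw := G.virasoro_weight hg (by omega) hne
          have hnn := wts_nonneg hX l hl
          push_cast at hw
          exact hne (h2 (K + 1) (by omega) (by push_cast; omega) l hl (by push_cast; exact hw))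

/-- All Virasoro constraints in genus `≥ 1` hold in classes with `(1-g)(D-3) + c_1·d ≤ 0`. -/
theorem virasoro_eq_zero_of_vdim_nonpos (hX : X.LowDegree)
    (hLW : X.strμ2 = X.D * X.χ / 12 + G.c1cD / 6) {g : ℕ} (hg : g ≠ 0) (d : B)
    (hd : G.vdim g d ≤ 0) (K : ℕ) (l : List X.Ins) : G.virasoro K g d l = 0 :=
  G.virasoro_eq_zero_of_initial hX hg d (G.virasoro_one hLW g d)
    (fun K hK hK' _ _ _ => by omega) K l

end GWTheory

end Vale.Agent.P269
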