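import Vale.Agent.P269.H727.Basic

/-! The operators `low`, `lowR`, `vir K` are even; algebra of the symbols `br`. -/

namespace Vale.Agent.P269

namespace Cohomology

variable {X : Cohomology}

/-- A finite linear combination of evaluations at insertions of parity `n`. -/
def EvenFun (X : Cohomology) (n : ℕ) (φ : (X.Ins → ℂ) → ℂ) : Prop :=
  ∃ c : X.Ins →₀ ℂ, (∀ f, φ f = c.sum fun y a => a * f y) ∧
    ∀ y, c y ≠ 0 → Even (X.par y + n)

theorem EvenFun.zero (n : ℕ) : EvenFun X n (fun _ => 0) :=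
  ⟨0, by simp, by simp⟩

theorem EvenFun.single {n : ℕ} {a : ℂ} {y : X.Ins} (h : a ≠ 0 → Even (X.par y + n)) :
    EvenFun X n (fun f => a * f y) := by
  classical
  refine ⟨Finsupp.single y a, fun f => ?_, fun z hz => ?_⟩
  · rw [Finsupp.sum_single_index]; simp
  · rw [Finsupp.single_apply] at hz
    split_ifs at hz with h'
    · subst h'; exact h hz
    · exact absurd rfl hz

theorem EvenFun.add {n : ℕ} {φ ψ : (X.Ins → ℂ) → ℂ} (hφ : EvenFun X n φ) (hψ : EvenFun X n ψ) :
    EvenFun X n (fun f => φ f + ψ f) := by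
  obtain ⟨c, h1, h2⟩ := hφ
  obtain ⟨c', h1', h2'⟩ := hψ
  refine ⟨c + c', fun f => ?_, fun y hy => ?_⟩
  · show φ f + ψ f = _
    rw [h1, h1', Finsupp.sum_add_index'] <;> intros <;> ring
  · by_cases h : c y = 0
    · refine h2' y fun h' => hy ?_
      rw [Finsupp.add_apply, h, h', add_zero]
    · exact h2 y h

theorem EvenFun.smul {n : ℕ} {φ : (X.Ins → ℂ) → ℂ} (a : ℂ) (hφ : EvenFun X n φ) :
    EvenFun X n (fun f => a * φ f) := by
  obtain ⟨c, h1, h2⟩ := hφ
  refine ⟨a • c, fun f => ?_, fun y hy => h2 y fun h => hy ?_⟩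
  · show a * φ f = _
    rw [h1, Finsupp.sum_smul_index (by simp)]
    simp only [Finsupp.sum, Finset.mul_sum, mul_assoc]
  · rw [Finsupp.smul_apply, h, smul_zero]

theorem EvenFun.sum {n : ℕ} {ι : Type*} (s : Finset ι) {φ : ι → (X.Ins → ℂ) → ℂ}
    (h : ∀ i ∈ s, EvenFun X n (φ i)) : EvenFun X n (fun f => ∑ i ∈ s, φ i f) := by
  classical
  induction s using Finset.induction_on with
  | empty => simpa using EvenFun.zero n
  | insert i s hi ih =>
    simp only [Finset.sum_insert hi]
    exact (h i (Finset.mem_insert_self _ _)).add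
      (ih fun j hj => h j (Finset.mem_insert_of_mem hj))

theorem EvenFun.ite {n : ℕ} {p : Prop} [Decidable p] {φ ψ : (X.Ins → ℂ) → ℂ}
    (hφ : EvenFun X n φ) (hψ : EvenFun X n ψ) :
    EvenFun X n (fun f => if p then φ f else ψ f) := by
  by_cases h : p
  · simpa [h] using hφ
  · simpa [h] using hψ

theorem EvenOp.of_evenFun {T : X.Ins → (X.Ins → ℂ) → ℂ}
    (h : ∀ x, EvenFun X (X.par x) (T x)) : EvenOp X T := by
  intro x
  obtain ⟨c, h1, h2⟩ := h x
  exact ⟨c.support, c, fun f => by rw [h1]; rfl, h2⟩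

theorem R_pow_deg (i : ℕ) (a b : X.I) (h : (X.R ^ i) a b ≠ 0) :
    X.p b = X.p a + i ∧ X.q b = X.q a + i := by
  induction i generalizing b with
  | zero =>
    rw [pow_zero] at h
    have : a = b := by
      by_contra hab
      exact h (Matrix.one_apply_ne hab)
    subst this
    simp
  | succ i ih =>
    rw [pow_succ, Matrix.mul_apply] at h
    obtain ⟨c, -, hc⟩ := Finset.exists_ne_zero_of_sum_ne_zero h
    have h1 := ih c (left_ne_zero_of_mul hc)
    have h2 := X.R_deg c b (right_ne_zero_of_mul hc)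
    omega

theorem low_even : EvenOp X X.low := by
  refine EvenOp.of_evenFun fun x => ?_
  have : X.low x = fun f => if x.1 = 0 then 0 else 1 * f (x.1 - 1, x.2) := by
    funext f; simp [low]
  rw [this]
  exact EvenFun.ite (EvenFun.zero _) (EvenFun.single fun _ => Even.add_self _)

theorem lowR_even : EvenOp X X.lowR := by
  refine EvenOp.of_evenFun fun x => ?_
  refine EvenFun.ite (EvenFun.zero _) (EvenFun.sum _ fun b _ => EvenFun.single fun h => ?_)
  have := X.R_deg _ _ h
  simp only [par, Nat.even_iff]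
  omega

theorem vir_even (K : ℕ) : EvenOp X (X.vir K) := by
  refine EvenOp.of_evenFun fun x => ?_
  refine EvenFun.sum _ fun i _ => EvenFun.ite (EvenFun.smul _
    (EvenFun.sum _ fun b _ => EvenFun.single fun h => ?_)) (EvenFun.zero _)
  have := R_pow_deg _ _ _ h
  simp only [par, Nat.even_iff]
  omega

/-! ### the symbols `br` -/

theorem br_zero (x : ℂ) (i : ℕ) : br x 0 i = if i = 0 then 1 else 0 := by
  simp [br, Polynomial.coeff_one]

theorem br_eq_zero {x : ℂ} {K i : ℕ} (h : K < i) : br x K i = 0 := by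
  have h1 : (∏ j ∈ Finset.range K, (Polynomial.X + Polynomial.C (x + (j : ℂ)))).natDegree ≤
      ∑ j ∈ Finset.range K, (Polynomial.X + Polynomial.C (x + (j : ℂ))).natDegree :=
    Polynomial.natDegree_prod_le _ _
  have h2 : ∑ j ∈ Finset.range K, (Polynomial.X + Polynomial.C (x + (j : ℂ))).natDegree ≤
      ∑ _j ∈ Finset.range K, 1 :=
    Finset.sum_le_sum fun j _ => (Polynomial.natDegree_X_add_C _).le
  have h3 : ∑ _j ∈ Finset.range K, 1 = K := by simp
  exact Polynomial.coeff_eq_zero_of_natDegree_lt (by omega)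

theorem br_shift_poly (x : ℂ) (K : ℕ) :
    (∏ j ∈ Finset.range (K + 1), (Polynomial.X + Polynomial.C (x + 1 + (j : ℂ)))) -
      (∏ j ∈ Finset.range (K + 1), (Polynomial.X + Polynomial.C (x + (j : ℂ)))) =
    Polynomial.C ((K : ℂ) + 1) *
      ∏ j ∈ Finset.range K, (Polynomial.X + Polynomial.C (x + 1 + (j : ℂ))) := by
  have h1 : (∏ j ∈ Finset.range (K + 1), (Polynomial.X + Polynomial.C (x + (j : ℂ)))) =
      (∏ j ∈ Finset.range K, (Polynomial.X + Polynomial.C (x + 1 + (j : ℂ)))) *
        (Polynomial.X + Polynomial.C x) := by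
    rw [Finset.prod_range_succ']
    congr 1
    · refine Finset.prod_congr rfl fun j _ => ?_
      congr 2
      push_cast
      ring
    · simp
  rw [h1, Finset.prod_range_succ, ← mul_sub]
  rw [mul_comm]
  congr 1
  rw [show x + 1 + (K : ℂ) = x + (K + 1) by ring, map_add Polynomial.C x]
  ring

theorem br_shift (x : ℂ) (K i : ℕ) :
    br (x + 1) (K + 1) i = br x (K + 1) i + (K + 1) * br (x + 1) K i := by
  have := congrArg (fun P => Polynomial.coeff P i) (br_shift_poly x K)
  simp only [Polynomial.coeff_sub, Polynomial.coeff_C_mul] at this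
  unfold br
  rw [← this]
  ring

theorem br_reflect (x : ℂ) (K i : ℕ) :
    br (-x - K + 1) K i = (-1) ^ (K + i) * br x K i := by
  have h1 : (∏ j ∈ Finset.range K, (Polynomial.X + Polynomial.C (x + (j : ℂ)))).comp
      (Polynomial.C (-1) * Polynomial.X) =
      Polynomial.C ((-1) ^ K) *
        ∏ j ∈ Finset.range K, (Polynomial.X + Polynomial.C (-x - K + 1 + (j : ℂ))) := by
    rw [Polynomial.prod_comp, ← Finset.prod_range_reflect (fun j => Polynomial.X +
      Polynomial.C (-x - K + 1 + (j : ℂ)))]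
    have hc : (Polynomial.C ((-1 : ℂ) ^ K)) = ∏ _j ∈ Finset.range K, Polynomial.C (-1 : ℂ) := by
      rw [Finset.prod_const, Finset.card_range, map_pow]
    rw [hc, ← Finset.prod_mul_distrib]
    refine Finset.prod_congr rfl fun j hj => ?_
    have hj' : j + 1 ≤ K := Finset.mem_range.1 hj
    have : ((K - 1 - j : ℕ) : ℂ) = (K : ℂ) - 1 - j := by
      rw [Nat.sub_sub, Nat.cast_sub (by omega)]
      push_cast
      ring
    rw [this]
    simp only [Polynomial.add_comp, Polynomial.X_comp, Polynomial.C_comp]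
    rw [mul_add, ← Polynomial.C_mul]
    congr 2
    ring
  have h2 := congrArg (fun P => Polynomial.coeff P i) h1
  simp only [Polynomial.comp_C_mul_X_coeff, Polynomial.coeff_C_mul] at h2
  have h3 : ((-1 : ℂ) ^ K) * (-1) ^ K = 1 := by
    rw [← pow_add]; exact (Even.add_self _).neg_one_pow
  unfold br
  calc _ = ((-1 : ℂ) ^ K * (-1) ^ K) * (∏ j ∈ Finset.range K,
        (Polynomial.X + Polynomial.C (-x - K + 1 + (j : ℂ)))).coeff i := by rw [h3, one_mul]
    _ = _ := by rw [mul_assoc, ← h2, pow_add]; ring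

end Cohomology

end Vale.Agent.P269
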