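import Vale.Agent.P269.H727.Comm

/-! The string equation for the Virasoro coefficients in genus `≥ 1`. -/

namespace Vale.Agent.P269

namespace Cohomology

variable {X : Cohomology}

theorem quad_add (K : ℕ) (Q Q' : X.Ins → X.Ins → ℂ) :
    X.quad K (fun x y => Q x y + Q' x y) = X.quad K Q + X.quad K Q' := by
  unfold quad
  simp only [mul_add, Finset.sum_add_distrib]

theorem quad_congr (K : ℕ) {Q Q' : X.Ins → X.Ins → ℂ} (h : ∀ x y, Q x y = Q' x y) :
    X.quad K Q = X.quad K Q' := by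
  congr 1
  funext x y
  exact h x y

theorem derive_quad {T} (hT : EvenOp X T) (K : ℕ) (Q : List X.Ins → X.Ins → X.Ins → ℂ)
    (l : List X.Ins) :
    X.derive T (fun l' => X.quad K (Q l')) l =
      X.quad K (fun x y => X.derive T (fun l' => Q l' x y) l) := by
  unfold quad
  rw [derive_sum hT]
  refine Finset.sum_congr rfl fun i _ => ?_
  rw [derive_sum hT]
  refine Finset.sum_congr rfl fun mn _ => ?_
  rw [derive_smul hT, derive_sum hT]
  congr 1
  refine Finset.sum_congr rfl fun a _ => ?_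
  rw [derive_sum hT]
  refine Finset.sum_congr rfl fun b _ => ?_
  rw [derive_smul hT, derive_sum hT]
  congr 1
  refine Finset.sum_congr rfl fun c _ => ?_
  rw [derive_smul hT]

/-- The operator `Cfun` as an operator on insertions. -/
noncomputable def Cop (X : Cohomology) (K : ℕ) (x : X.Ins) (f : X.Ins → ℂ) : ℂ :=
  if x.1 = 0 then X.Cfun K x.2 f else 0

theorem η_parity {a b : X.I} (h : X.η a b ≠ 0) : Even (X.p a + X.q a + (X.p b + X.q b)) := by
  have := X.η_deg a b h
  rw [Nat.even_iff]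
  omega

theorem η_mul_inv (a c : X.I) : ∑ b, X.η a b * X.η⁻¹ b c = if a = c then 1 else 0 := by
  have : (X.η * X.η⁻¹) a c = (1 : Matrix X.I X.I ℂ) a c := by
    rw [Matrix.mul_nonsing_inv _ X.η_nondeg]
  rwa [Matrix.mul_apply, Matrix.one_apply] at this

theorem η_inv_mul (a c : X.I) : ∑ b, X.η⁻¹ a b * X.η b c = if a = c then 1 else 0 := by
  have : (X.η⁻¹ * X.η) a c = (1 : Matrix X.I X.I ℂ) a c := by
    rw [Matrix.nonsing_inv_mul _ X.η_nondeg]
  rwa [Matrix.mul_apply, Matrix.one_apply] at this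

/-- Degrees of the entries of the inverse pairing. -/
theorem η_inv_deg (a b : X.I) (h : X.η⁻¹ a b ≠ 0) : X.p a + X.p b = X.D ∧ X.q a + X.q b = X.D := by
  classical
  -- the block decomposition of `η` by degrees
  set E : Matrix X.I X.I ℂ := fun a b =>
    if X.p a + X.p b = X.D ∧ X.q a + X.q b = X.D then X.η⁻¹ a b else 0 with hE
  have h1 : E * X.η = 1 := by
    ext a c
    rw [Matrix.mul_apply, Matrix.one_apply, ← η_inv_mul a c]
    by_cases hac : X.p a = X.p c ∧ X.q a = X.q c
    · refine Finset.sum_congr rfl fun b _ => ?_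
      by_cases hb : X.η b c = 0
      · simp [hb]
      · have := X.η_deg b c hb
        simp only [hE]
        rw [if_pos (by omega)]
    · have : a ≠ c := by
        rintro rfl
        exact hac ⟨rfl, rfl⟩
      rw [η_inv_mul a c, if_neg this]
      refine Finset.sum_eq_zero fun b _ => ?_
      by_cases hb : X.η b c = 0
      · simp [hb]
      · have := X.η_deg b c hb
        simp only [hE]
        rw [if_neg (by omega), zero_mul]
  have h2 : E = X.η⁻¹ := by
    have := congrArg (fun M => M * X.η⁻¹) h1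
    simp only [Matrix.mul_assoc, Matrix.mul_nonsing_inv _ X.η_nondeg, Matrix.mul_one,
      Matrix.one_mul] at this
    exact this
  by_contra hc
  apply h
  rw [← h2]
  simp only [hE]
  rw [if_neg hc]

theorem R_pow_self (i : ℕ) (a b : X.I) :
    ∑ c, (X.R ^ i) a c * X.η c b = ∑ c, X.η a c * (X.R ^ i) b c := by
  have hR : X.R * X.η = X.η * X.R.transpose := by
    ext a b
    rw [Matrix.mul_apply, Matrix.mul_apply]
    simpa [Matrix.transpose_apply] using X.R_self a b
  have h : X.R ^ i * X.η = X.η * (X.R ^ i).transpose := by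
    induction i with
    | zero => simp
    | succ i ih =>
      rw [pow_succ, Matrix.mul_assoc, hR, ← Matrix.mul_assoc, ih, Matrix.mul_assoc,
        ← Matrix.transpose_mul, ← pow_succ, ← pow_succ']
  have := congrFun (congrFun h a) b
  rw [Matrix.mul_apply, Matrix.mul_apply] at this
  simpa [Matrix.transpose_apply] using this

theorem pairing_append_singleton (M : Matrix X.I X.I ℂ) (l : List X.Ins) (x : X.Ins) :
    X.pairing M (l ++ [x]) =
      one1 (fun e => if x.1 = 0 ∧ e.1 = 0 then M e.2 x.2 else 0) l := by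
  obtain ⟨m, a⟩ := x
  match l with
  | [] => simp [pairing, one1]
  | [(n, e)] =>
    cases m <;> cases n <;> simp [pairing, one1]
  | e :: e' :: l' => simp [pairing, one1]

theorem pairing_cons (M : Matrix X.I X.I ℂ) (l : List X.Ins) (x : X.Ins) :
    X.pairing M (x :: l) =
      one1 (fun e => if x.1 = 0 ∧ e.1 = 0 then M x.2 e.2 else 0) l := by
  obtain ⟨m, a⟩ := x
  match l with
  | [] => simp [pairing, one1]
  | [(n, e)] =>
    cases m <;> cases n <;> simp [pairing, one1]
  | e :: e' :: l' => simp [pairing, one1]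

theorem contract_left {ι : Type*} (s : Finset ι) (φ : X.I → ℂ) (M : Matrix X.I X.I ℂ)
    (w : ι → ℂ) (e : ι → X.I) (G : ι → X.I → ℂ) :
    ∑ a, ∑ b, X.η⁻¹ a b * φ b * ∑ c, M b c * ∑ j ∈ s, w j * X.η (e j) a * G j c =
      ∑ j ∈ s, w j * (φ (e j) * ∑ c, M (e j) c * G j c) := by
  have h1 : ∀ j ∈ s, w j * (φ (e j) * ∑ c, M (e j) c * G j c) =
      ∑ a, ∑ b, X.η⁻¹ a b * φ b * ∑ c, M b c * (w j * X.η (e j) a * G j c) := by
    intro j _
    rw [Finset.sum_comm]
    have h2 : ∀ b, ∑ a, X.η⁻¹ a b * φ b * ∑ c, M b c * (w j * X.η (e j) a * G j c) =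
        (if e j = b then 1 else 0) * (w j * (φ b * ∑ c, M b c * G j c)) := by
      intro b
      rw [← η_mul_inv (X := X) (e j) b, Finset.sum_mul]
      refine Finset.sum_congr rfl fun a _ => ?_
      simp only [Finset.mul_sum]
      refine Finset.sum_congr rfl fun c _ => ?_
      ring
    simp only [h2]
    simp
  rw [Finset.sum_congr rfl h1]
  symm
  rw [Finset.sum_comm]
  refine Finset.sum_congr rfl fun a _ => ?_
  rw [Finset.sum_comm]
  refine Finset.sum_congr rfl fun b _ => ?_
  rw [← Finset.mul_sum]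
  congr 1
  rw [Finset.sum_comm]
  refine Finset.sum_congr rfl fun c _ => ?_
  rw [Finset.mul_sum]

theorem contract_right {ι : Type*} (s : Finset ι) (i : ℕ) (φ φ' : X.I → ℂ)
    (hφ : ∀ b e, X.p b + (X.p e + i) = X.D → φ b = φ' e)
    (w : ι → ℂ) (e : ι → X.I) (G : ι → X.I → ℂ) :
    ∑ a, ∑ b, X.η⁻¹ a b * φ b * ∑ c, (X.R ^ i) b c * ∑ j ∈ s, w j * X.η c (e j) * G j a =
      ∑ j ∈ s, w j * (φ' (e j) * ∑ c, (X.R ^ i) (e j) c * G j c) := by
  have h1 : ∀ j ∈ s, w j * (φ' (e j) * ∑ c, (X.R ^ i) (e j) c * G j c) =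
      ∑ a, ∑ b, X.η⁻¹ a b * φ b * ∑ c, (X.R ^ i) b c * (w j * X.η c (e j) * G j a) := by
    intro j _
    have h2 : ∀ a b, X.η⁻¹ a b * φ b * ∑ c, (X.R ^ i) b c * (w j * X.η c (e j) * G j a) =
        ∑ c, X.η⁻¹ a b * X.η b c * (φ' (e j) * (X.R ^ i) (e j) c * (w j * G j a)) := by
      intro a b
      have h3 : ∑ c, (X.R ^ i) b c * (w j * X.η c (e j) * G j a) =
          (∑ c, X.η b c * (X.R ^ i) (e j) c) * (w j * G j a) := by
        rw [← R_pow_self, Finset.sum_mul]
        exact Finset.sum_congr rfl fun c _ => by ring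
      rw [h3, Finset.sum_mul, Finset.mul_sum]
      refine Finset.sum_congr rfl fun c _ => ?_
      by_cases hb : X.η b c = 0
      · simp [hb]
      by_cases hr : (X.R ^ i) (e j) c = 0
      · simp [hr]
      have hb' := X.η_deg b c hb
      have hr' := R_pow_deg _ _ _ hr
      rw [hφ b (e j) (by omega)]
      ring
    simp only [h2]
    have h4 : ∀ a, ∑ b, ∑ c, X.η⁻¹ a b * X.η b c *
        (φ' (e j) * (X.R ^ i) (e j) c * (w j * G j a)) =
        φ' (e j) * (X.R ^ i) (e j) a * (w j * G j a) := by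
      intro a
      rw [Finset.sum_comm]
      have h5 : ∀ c, ∑ b, X.η⁻¹ a b * X.η b c *
          (φ' (e j) * (X.R ^ i) (e j) c * (w j * G j a)) =
          (if a = c then 1 else 0) * (φ' (e j) * (X.R ^ i) (e j) c * (w j * G j a)) := by
        intro c
        rw [← η_inv_mul (X := X) a c, Finset.sum_mul]
      simp only [h5]
      simp
    simp only [h4]
    simp only [Finset.mul_sum]
    exact Finset.sum_congr rfl fun c _ => by ring
  rw [Finset.sum_congr rfl h1]
  symm
  rw [Finset.sum_comm]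
  refine Finset.sum_congr rfl fun a _ => ?_
  rw [Finset.sum_comm]
  refine Finset.sum_congr rfl fun b _ => ?_
  rw [← Finset.mul_sum]
  congr 1
  rw [Finset.sum_comm]
  refine Finset.sum_congr rfl fun c _ => ?_
  rw [Finset.mul_sum]

theorem derive_Cop (K : ℕ) (F : List X.Ins → ℂ) (l : List X.Ins) :
    X.derive (X.Cop K) F l = ∑ i ∈ Finset.range K, ∑ j : Fin l.length,
      (if (l.get j).1 = 0 then 1 else 0) * (br (X.μ (l.get j).2 - 1 / 2) (K + 1) i *
        ∑ c, (X.R ^ i) (l.get j).2 c * F (l.set j (K - 1 - i, c))) := by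
  unfold derive Cop Cfun
  rw [Finset.sum_comm]
  refine Finset.sum_congr rfl fun j _ => ?_
  split_ifs
  · simp
  · simp

theorem quad_left (K : ℕ) {F : List X.Ins → ℂ} (hF : GSymm F) (l : List X.Ins) :
    X.quad (K + 1) (fun x y => X.splitSum (fun l₁ l₂ =>
      X.pairing X.η (l₁ ++ [x]) * F (y :: l₂)) l) = - X.derive (X.Cop K) F l := by
  rw [derive_Cop]
  unfold quad
  rw [Nat.add_sub_cancel, ← Finset.sum_neg_distrib]
  refine Finset.sum_congr rfl fun i hi => ?_
  have hi' : i < K := Finset.mem_range.1 hi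
  rw [show K + 1 - 2 - i = K - 1 - i by omega]
  generalize K - 1 - i = t
  have h0 : ∀ mn ∈ Finset.HasAntidiagonal.antidiagonal t, mn ≠ (0, t) →
      (-1 : ℂ) ^ (mn.1 + 1) * ∑ a, ∑ b, X.η⁻¹ a b * br (X.μ b - mn.1 - 1 / 2) (K + 1) i *
        ∑ c, (X.R ^ i) b c * X.splitSum (fun l₁ l₂ =>
          X.pairing X.η (l₁ ++ [(mn.1, a)]) * F ((mn.2, c) :: l₂)) l = 0 := by
    intro mn hmn hne
    have hm : mn.1 ≠ 0 := by
      intro h
      apply hne
      have := Finset.HasAntidiagonal.mem_antidiagonal.1 hmn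
      ext <;> simp <;> omega
    have : ∀ a c, X.splitSum (fun l₁ l₂ =>
          X.pairing X.η (l₁ ++ [(mn.1, a)]) * F ((mn.2, c) :: l₂)) l = 0 := by
      intro a c
      have h1 : (fun l₁ l₂ => X.pairing X.η (l₁ ++ [(mn.1, a)]) * F ((mn.2, c) :: l₂)) =
          fun _ _ => (0 : ℂ) := by
        funext l₁ l₂
        rw [pairing_append_singleton]
        match l₁ with
        | [] => simp [one1]
        | [e] => simp [one1, hm]
        | e :: e' :: l' => simp [one1]
      rw [h1, splitSum_zero]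
    simp [this]
  rw [Finset.sum_eq_single (0, t) h0 (by simp)]
  have h1 : ∀ a b c, X.η⁻¹ a b ≠ 0 → (X.R ^ i) b c ≠ 0 → X.splitSum (fun l₁ l₂ =>
      X.pairing X.η (l₁ ++ [(0, a)]) * F ((t, c) :: l₂)) l =
      ∑ j : Fin l.length, (if (l.get j).1 = 0 then 1 else 0) * X.η (l.get j).2 a *
        F (l.set j (t, c)) := by
    intro a b c hab hbc
    have h2 : (fun l₁ l₂ => X.pairing X.η (l₁ ++ [(0, a)]) * F ((t, c) :: l₂)) =
        fun l₁ l₂ => one1 (fun e => if e.1 = 0 then X.η e.2 a else 0) l₁ * F ((t, c) :: l₂) := by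
      funext l₁ l₂
      rw [pairing_append_singleton]
      simp
    rw [h2, splitSum_extract_left _ _ _ hF]
    · unfold derive
      refine Finset.sum_congr rfl fun j _ => ?_
      by_cases h : (l.get j).1 = 0
      · simp only [h, if_true, one_mul]
      · simp only [h, if_false, zero_mul]
    · intro e he
      have he' : X.η e.2 a ≠ 0 := by
        intro h
        simp [h] at he
      have e1 := X.η_deg _ _ he'
      have e2 := η_inv_deg _ _ hab
      have e3 := R_pow_deg _ _ _ hbc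
      unfold par
      rw [Nat.even_iff]
      simp only
      omega
  have h3 : ∀ a b, X.η⁻¹ a b * br (X.μ b - ((0 : ℕ) : ℂ) - 1 / 2) (K + 1) i *
      ∑ c, (X.R ^ i) b c * X.splitSum (fun l₁ l₂ =>
          X.pairing X.η (l₁ ++ [(0, a)]) * F ((t, c) :: l₂)) l =
      X.η⁻¹ a b * br (X.μ b - 1 / 2) (K + 1) i *
      ∑ c, (X.R ^ i) b c * ∑ j : Fin l.length, (if (l.get j).1 = 0 then 1 else 0) *
        X.η (l.get j).2 a * F (l.set j (t, c)) := by
    intro a b
    by_cases hab : X.η⁻¹ a b = 0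
    · simp [hab]
    rw [Nat.cast_zero, sub_zero]
    congr 1
    refine Finset.sum_congr rfl fun c _ => ?_
    by_cases hbc : (X.R ^ i) b c = 0
    · simp [hbc]
    rw [h1 a b c hab hbc]
  simp only [h3]
  rw [contract_left Finset.univ (fun b => br (X.μ b - 1 / 2) (K + 1) i) (X.R ^ i)
    (fun j : Fin l.length => if (l.get j).1 = 0 then 1 else 0) (fun j => (l.get j).2)
    (fun j c => F (l.set j (t, c)))]
  simp

theorem quad_right (K : ℕ) {F : List X.Ins → ℂ} (hF : GSymm F) (l : List X.Ins) :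
    X.quad (K + 1) (fun x y => X.splitSum (fun l₁ l₂ =>
      F (l₁ ++ [x]) * X.pairing X.η (y :: l₂)) l) = - X.derive (X.Cop K) F l := by
  rw [derive_Cop]
  unfold quad
  rw [Nat.add_sub_cancel, ← Finset.sum_neg_distrib]
  refine Finset.sum_congr rfl fun i hi => ?_
  have hi' : i < K := Finset.mem_range.1 hi
  rw [show K + 1 - 2 - i = K - 1 - i by omega]
  obtain ⟨t, ht⟩ : ∃ t, t = K - 1 - i := ⟨_, rfl⟩
  rw [← ht]
  have h0 : ∀ mn ∈ Finset.HasAntidiagonal.antidiagonal t, mn ≠ (t, 0) →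
      (-1 : ℂ) ^ (mn.1 + 1) * ∑ a, ∑ b, X.η⁻¹ a b * br (X.μ b - mn.1 - 1 / 2) (K + 1) i *
        ∑ c, (X.R ^ i) b c * X.splitSum (fun l₁ l₂ =>
          F (l₁ ++ [(mn.1, a)]) * X.pairing X.η ((mn.2, c) :: l₂)) l = 0 := by
    intro mn hmn hne
    have hm : mn.2 ≠ 0 := by
      intro h
      apply hne
      have := Finset.HasAntidiagonal.mem_antidiagonal.1 hmn
      ext <;> simp <;> omega
    have : ∀ a c, X.splitSum (fun l₁ l₂ =>
          F (l₁ ++ [(mn.1, a)]) * X.pairing X.η ((mn.2, c) :: l₂)) l = 0 := by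
      intro a c
      have h1 : (fun l₁ l₂ => F (l₁ ++ [(mn.1, a)]) * X.pairing X.η ((mn.2, c) :: l₂)) =
          fun _ _ => (0 : ℂ) := by
        funext l₁ l₂
        rw [pairing_cons]
        match l₂ with
        | [] => simp [one1]
        | [e] => simp [one1, hm]
        | e :: e' :: l' => simp [one1]
      rw [h1, splitSum_zero]
    simp [this]
  rw [Finset.sum_eq_single (t, 0) h0 (by simp)]
  have h1 : ∀ a b c, X.η⁻¹ a b ≠ 0 → (X.R ^ i) b c ≠ 0 → X.splitSum (fun l₁ l₂ =>
      F (l₁ ++ [(t, a)]) * X.pairing X.η ((0, c) :: l₂)) l =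
      ∑ j : Fin l.length, (if (l.get j).1 = 0 then 1 else 0) * X.η c (l.get j).2 *
        F (l.set j (t, a)) := by
    intro a b c hab hbc
    have h2 : (fun l₁ l₂ => F (l₁ ++ [(t, a)]) * X.pairing X.η ((0, c) :: l₂)) =
        fun l₁ l₂ => F (l₁ ++ [(t, a)]) * one1 (fun e => if e.1 = 0 then X.η c e.2 else 0) l₂ := by
      funext l₁ l₂
      rw [pairing_cons]
      simp
    rw [h2, splitSum_extract_right _ _ _ hF]
    · unfold derive
      refine Finset.sum_congr rfl fun j _ => ?_
      by_cases h : (l.get j).1 = 0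
      · simp only [h, if_true, one_mul]
      · simp only [h, if_false, zero_mul]
    · intro e he
      have he' : X.η c e.2 ≠ 0 := by
        intro h
        simp [h] at he
      have e1 := X.η_deg _ _ he'
      have e2 := η_inv_deg _ _ hab
      have e3 := R_pow_deg _ _ _ hbc
      unfold par
      rw [Nat.even_iff]
      simp only
      omega
  have h3 : ∀ a b, X.η⁻¹ a b * br (X.μ b - (t : ℂ) - 1 / 2) (K + 1) i *
      ∑ c, (X.R ^ i) b c * X.splitSum (fun l₁ l₂ =>
          F (l₁ ++ [(t, a)]) * X.pairing X.η ((0, c) :: l₂)) l =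
      X.η⁻¹ a b * br (X.μ b - t - 1 / 2) (K + 1) i *
      ∑ c, (X.R ^ i) b c * ∑ j : Fin l.length, (if (l.get j).1 = 0 then 1 else 0) *
        X.η c (l.get j).2 * F (l.set j (t, a)) := by
    intro a b
    by_cases hab : X.η⁻¹ a b = 0
    · simp [hab]
    congr 1
    refine Finset.sum_congr rfl fun c _ => ?_
    by_cases hbc : (X.R ^ i) b c = 0
    · simp [hbc]
    rw [h1 a b c hab hbc]
  simp only [h3]
  have hφ : ∀ b e, X.p b + (X.p e + i) = X.D → br (X.μ b - (t : ℂ) - 1 / 2) (K + 1) i =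
      (-1) ^ (K + 1 + i) * br (X.μ e - 1 / 2) (K + 1) i := by
    intro b e hbe
    rw [← br_reflect]
    congr 1
    have h4 : (X.D : ℂ) = X.p b + (X.p e + i) := by exact_mod_cast hbe.symm
    have h5 : (K : ℂ) = t + 1 + i := by
      have : K = t + 1 + i := by omega
      exact_mod_cast this
    unfold μ
    push_cast
    rw [h4, h5]
    ring
  rw [contract_right Finset.univ i (fun b => br (X.μ b - (t : ℂ) - 1 / 2) (K + 1) i)
    (fun e => (-1) ^ (K + 1 + i) * br (X.μ e - 1 / 2) (K + 1) i) hφ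
    (fun j : Fin l.length => if (l.get j).1 = 0 then 1 else 0) (fun j => (l.get j).2)
    (fun j c => F (l.set j (t, c)))]
  rw [Finset.mul_sum, ← Finset.sum_neg_distrib]
  refine Finset.sum_congr rfl fun j _ => ?_
  have h6 : (-1 : ℂ) ^ (t + 1) * (-1) ^ (K + 1 + i) = -1 := by
    rw [← pow_add]
    apply Odd.neg_one_pow
    rw [Nat.odd_iff]
    omega
  linear_combination ((if (l.get j).1 = 0 then (1 : ℂ) else 0) *
    (br (X.μ (l.get j).2 - 1 / 2) (K + 1) i *
      ∑ c, (X.R ^ i) (l.get j).2 c * F (l.set j (t, c)))) * h6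

end Cohomology

end Vale.Agent.P269
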