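import Vale.Agent.P269.H727.Str
import Vale.Agent.P269.H727.L0

/-! The string equation for the Virasoro coefficients in genus `≥ 1`, continued. -/

namespace Vale.Agent.P269

namespace Cohomology

variable {X : Cohomology}

theorem par_one : X.par (0, X.one) = 0 := by
  simp [par, X.p_one, X.q_one]

theorem par_one' (m : ℕ) : X.par (m, X.one) = 0 := by
  simp [par, X.p_one, X.q_one]

theorem η_inv_trace (b : X.I) :
    ∑ a, X.η⁻¹ a b * X.η a b = (-1) ^ (X.p b + X.q b) := by
  have h : ∀ a, X.η⁻¹ a b * X.η a b = (-1) ^ (X.p b + X.q b) * (X.η b a * X.η⁻¹ a b) := by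
    intro a
    by_cases ha : X.η b a = 0
    · have := X.η_symm b a
      rw [this, ha]; simp
    · rw [X.η_symm b a]
      have h1 := η_parity ha
      have h2 : (-1 : ℂ) ^ ((X.p b + X.q b) * (X.p a + X.q a)) = (-1) ^ (X.p b + X.q b) := by
        apply neg_one_pow_congr
        rw [Nat.even_iff] at *
        have h3 : (X.p a + X.q a) % 2 = (X.p b + X.q b) % 2 := by omega
        rw [Nat.add_mod, Nat.mul_mod, h3]
        rcases Nat.mod_two_eq_zero_or_one (X.p b + X.q b) with h | h <;> simp [h]
      rw [h2]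
      ring
  simp only [h]
  rw [← Finset.mul_sum, η_mul_inv]
  simp

theorem br_two_zero (x : ℂ) : br x 2 0 = x * (x + 1) := by
  simp [br, Finset.prod_range_succ, Polynomial.mul_coeff_zero]

theorem quad_pair (K : ℕ) (l : List X.Ins) :
    1 / 2 * X.quad (K + 1) (fun x y => X.pairing X.η (x :: y :: l)) =
      (K + 1) * (if K = 1 ∧ l = [] then X.χ / 16 - X.strμ2 / 4 else 0) := by
  by_cases hl : l = []
  swap
  · have h0 : ∀ x y, X.pairing X.η (x :: y :: l) = 0 := by
      intro x y
      match l, hl with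
      | z :: l', _ => simp [pairing]
    have : X.quad (K + 1) (fun x y => X.pairing X.η (x :: y :: l)) = 0 := by
      simp [quad, h0]
    rw [this]
    simp [hl]
  subst hl
  have hterm : ∀ i ∈ Finset.range K, ∀ mn ∈ Finset.HasAntidiagonal.antidiagonal (K - 1 - i),
      (-1 : ℂ) ^ (mn.1 + 1) * ∑ a, ∑ b, X.η⁻¹ a b * br (X.μ b - mn.1 - 1 / 2) (K + 1) i *
        ∑ c, (X.R ^ i) b c * X.pairing X.η [(mn.1, a), (mn.2, c)] =
      if i = 0 ∧ K = 1 then X.χ / 4 - X.strμ2 else 0 := by
    intro i hi mn hmn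
    have hi' := Finset.mem_range.1 hi
    have hmn' := Finset.HasAntidiagonal.mem_antidiagonal.1 hmn
    split_ifs with hc
    · obtain ⟨rfl, rfl⟩ := hc
      have h1 : mn.1 = 0 := by omega
      have h2 : mn.2 = 0 := by omega
      rw [h1, h2]
      have h3 : ∀ a b, X.η⁻¹ a b * br (X.μ b - ((0 : ℕ) : ℂ) - 1 / 2) (1 + 1) 0 *
          ∑ c, (X.R ^ 0) b c * X.pairing X.η [(0, a), (0, c)] =
          (X.μ b ^ 2 - 1 / 4) * (X.η⁻¹ a b * X.η a b) := by
        intro a b
        rw [br_two_zero]
        have : ∑ c, (X.R ^ 0) b c * X.pairing X.η [(0, a), (0, c)] = X.η a b := by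
          simp [Matrix.one_apply, pairing]
        rw [this]
        push_cast
        ring
      simp only [h3]
      rw [Finset.sum_comm]
      have h4 : ∀ b, ∑ a, (X.μ b ^ 2 - 1 / 4) * (X.η⁻¹ a b * X.η a b) =
          (X.μ b ^ 2 - 1 / 4) * (-1) ^ (X.p b + X.q b) := by
        intro b
        rw [← Finset.mul_sum, η_inv_trace]
      simp only [h4]
      unfold χ strμ2
      rw [Finset.sum_div, ← Finset.sum_sub_distrib, zero_add, pow_one, Finset.mul_sum]
      refine Finset.sum_congr rfl fun b _ => ?_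
      ring
    · have h0 : ∀ a b, X.η⁻¹ a b * br (X.μ b - mn.1 - 1 / 2) (K + 1) i *
          ∑ c, (X.R ^ i) b c * X.pairing X.η [(mn.1, a), (mn.2, c)] = 0 := by
        intro a b
        by_cases hab : X.η⁻¹ a b = 0
        · simp [hab]
        rw [Finset.sum_eq_zero, mul_zero]
        intro c _
        by_cases hbc : (X.R ^ i) b c = 0
        · simp [hbc]
        rcases Nat.eq_zero_or_pos mn.1 with h1 | h1
        · rcases Nat.eq_zero_or_pos mn.2 with h2 | h2
          · rw [h1, h2]
            by_cases hac : X.η a c = 0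
            · simp [pairing, hac]
            exfalso
            have e1 := X.η_deg _ _ hac
            have e2 := η_inv_deg _ _ hab
            have e3 := R_pow_deg _ _ _ hbc
            apply hc
            omega
          · obtain ⟨n, hn⟩ := Nat.exists_eq_succ_of_ne_zero h2.ne'
            rw [hn]
            cases mn.1 <;> simp [pairing]
        · obtain ⟨n, hn⟩ := Nat.exists_eq_succ_of_ne_zero h1.ne'
          rw [hn]
          simp [pairing]
      rw [Finset.sum_eq_zero fun a _ => Finset.sum_eq_zero fun b _ => h0 a b, mul_zero]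
  have hq : X.quad (K + 1) (fun x y => X.pairing X.η (x :: y :: [])) =
      if K = 1 then X.χ / 4 - X.strμ2 else 0 := by
    unfold quad
    rw [Nat.add_sub_cancel, show K + 1 - 2 = K - 1 by omega]
    rw [Finset.sum_congr rfl fun i hi => Finset.sum_congr rfl fun mn hmn => hterm i hi mn hmn]
    by_cases hK : K = 1
    · subst hK
      simp
    · simp [hK]
  rw [hq]
  by_cases hK : K = 1
  · subst hK
    simp
    ring
  · simp [hK]

/-- String equation for a product term. -/
theorem prod_string (F₁ F₂ p₁ p₂ : List X.Ins → ℂ)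
    (h₁ : ∀ l, F₁ ((0, X.one) :: l) = X.derive X.low F₁ l + p₁ l)
    (h₂ : ∀ l, F₂ ((0, X.one) :: l) = X.derive X.low F₂ l + p₂ l)
    (hs : GSymm F₂) (x y : X.Ins) (l : List X.Ins) :
    X.splitSum (fun l₁ l₂ => F₁ (l₁ ++ [x]) * F₂ (y :: l₂)) ((0, X.one) :: l) =
      X.derive X.low (X.splitSum (fun l₁ l₂ => F₁ (l₁ ++ [x]) * F₂ (y :: l₂))) l +
      (X.low x (fun x' => X.splitSum (fun l₁ l₂ => F₁ (l₁ ++ [x']) * F₂ (y :: l₂)) l) +
        X.low y (fun y' => X.splitSum (fun l₁ l₂ => F₁ (l₁ ++ [x]) * F₂ (y' :: l₂)) l)) +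
      X.splitSum (fun l₁ l₂ => p₁ (l₁ ++ [x]) * F₂ (y :: l₂)) l +
      X.splitSum (fun l₁ l₂ => F₁ (l₁ ++ [x]) * p₂ (y :: l₂)) l := by
  rw [splitSum_cons, derive_splitSum low_even, low_even.splitSum x, low_even.splitSum y,
    ← splitSum_add, ← splitSum_add, ← splitSum_add, ← splitSum_add, ← splitSum_add]
  congr 1
  funext l₁ l₂
  have e1 : F₁ ((0, X.one) :: l₁ ++ [x]) = X.derive X.low (fun l' => F₁ (l' ++ [x])) l₁ +
      X.low x (fun x' => F₁ (l₁ ++ [x'])) + p₁ (l₁ ++ [x]) := by
    rw [List.cons_append, h₁, derive_append]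
    congr 2
    rw [derive_cons, derive_nil, add_zero]
  have e2 : F₂ (y :: (0, X.one) :: l₂) = X.low y (fun y' => F₂ (y' :: l₂)) +
      X.derive X.low (fun l' => F₂ (y :: l')) l₂ + p₂ (y :: l₂) := by
    rw [hs.swap_head, par_one, mul_zero, pow_zero, one_mul, h₂, derive_cons]
  have e3 : X.derive X.low (fun l' => F₁ (l' ++ [x]) * F₂ (y :: l₂)) l₁ =
      X.derive X.low (fun l' => F₁ (l' ++ [x])) l₁ * F₂ (y :: l₂) := by
    rw [mul_comm, ← derive_smul low_even]
    congr 1
    funext l'
    ring
  have e4 : X.derive X.low (fun l' => F₁ (l₁ ++ [x]) * F₂ (y :: l')) l₂ =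
      F₁ (l₁ ++ [x]) * X.derive X.low (fun l' => F₂ (y :: l')) l₂ := by
    rw [← derive_smul low_even]
  have e5 : X.low x (fun x' => F₁ (l₁ ++ [x']) * F₂ (y :: l₂)) =
      X.low x (fun x' => F₁ (l₁ ++ [x'])) * F₂ (y :: l₂) := by
    rw [mul_comm, ← low_even.smul]
    congr 1
    funext l'
    ring
  have e6 : X.low y (fun y' => F₁ (l₁ ++ [x]) * F₂ (y' :: l₂)) =
      F₁ (l₁ ++ [x]) * X.low y (fun y' => F₂ (y' :: l₂)) := by
    rw [← low_even.smul]
  rw [e1, e2, e3, e4, e5, e6, par_one, zero_mul, pow_zero, one_mul]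
  ring

end Cohomology

namespace GWTheory

open Cohomology

variable {X : Cohomology} {B : Type} [AddCommMonoid B] [DecidableEq B] [Finset.HasAntidiagonal B]
  (G : GWTheory X B)

theorem gsymm (g : ℕ) (d : B) : GSymm (G.corr g d) := G.swap g d

theorem second_string (g : ℕ) (d : B) (l : List X.Ins) (x y : X.Ins) :
    G.second g d ((0, X.one) :: l) x y =
      X.derive X.low (fun l' => G.second g d l' x y) l +
      (X.low x (fun x' => G.second g d l x' y) + X.low y (fun y' => G.second g d l x y')) +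
      (if g = 1 ∧ d = 0 then X.pairing X.η (x :: y :: l) else 0) +
      X.splitSum (fun l₁ l₂ => X.pairing X.η (l₁ ++ [x]) * G.corr g d (y :: l₂)) l +
      X.splitSum (fun l₁ l₂ => G.corr g d (l₁ ++ [x]) * X.pairing X.η (y :: l₂)) l := by
  unfold second
  rw [derive_add low_even, low_even.add, low_even.add, derive_sum low_even, low_even.sum,
    low_even.sum]
  -- genus reduction
  have hA : (if g = 0 then 0 else G.corr (g - 1) d (x :: y :: (0, X.one) :: l)) =
      X.derive X.low (fun l' => if g = 0 then 0 else G.corr (g - 1) d (x :: y :: l')) l +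
      (X.low x (fun x' => if g = 0 then 0 else G.corr (g - 1) d (x' :: y :: l)) +
        X.low y (fun y' => if g = 0 then 0 else G.corr (g - 1) d (x :: y' :: l))) +
      (if g = 1 ∧ d = 0 then X.pairing X.η (x :: y :: l) else 0) := by
    by_cases hg : g = 0
    · have : ¬ (g = 1 ∧ d = 0) := fun h => by omega
      simp only [hg, if_true]
      rw [derive_zero low_even, low_even.zero, low_even.zero]
      simp
    · simp only [hg, if_false]
      have h1 := (G.gsymm (g - 1) d).move_even [x, y] (0, X.one) par_one l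
      simp only [List.cons_append, List.nil_append] at h1
      rw [h1, G.string, derive_cons, derive_cons]
      have h2 : (g - 1 = 0 ∧ d = 0) ↔ (g = 1 ∧ d = 0) := by
        constructor <;> rintro ⟨h, h'⟩ <;> exact ⟨by omega, h'⟩
      simp only [h2]
      ring
  -- products
  have hB : ∀ gg ∈ Finset.HasAntidiagonal.antidiagonal g,
      ∀ dd ∈ Finset.HasAntidiagonal.antidiagonal d,
      X.splitSum (fun l₁ l₂ => G.corr gg.1 dd.1 (l₁ ++ [x]) * G.corr gg.2 dd.2 (y :: l₂))
        ((0, X.one) :: l) =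
      X.derive X.low (X.splitSum
        (fun l₁ l₂ => G.corr gg.1 dd.1 (l₁ ++ [x]) * G.corr gg.2 dd.2 (y :: l₂))) l +
      (X.low x (fun x' => X.splitSum
        (fun l₁ l₂ => G.corr gg.1 dd.1 (l₁ ++ [x']) * G.corr gg.2 dd.2 (y :: l₂)) l) +
      X.low y (fun y' => X.splitSum
        (fun l₁ l₂ => G.corr gg.1 dd.1 (l₁ ++ [x]) * G.corr gg.2 dd.2 (y' :: l₂)) l)) +
      (if gg = (0, g) ∧ dd = (0, d) then
        X.splitSum (fun l₁ l₂ => X.pairing X.η (l₁ ++ [x]) * G.corr g d (y :: l₂)) l else 0) +
      (if gg = (g, 0) ∧ dd = (d, 0) then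
        X.splitSum (fun l₁ l₂ => G.corr g d (l₁ ++ [x]) * X.pairing X.η (y :: l₂)) l else 0) := by
    intro gg hgg dd hdd
    have hgg' := Finset.HasAntidiagonal.mem_antidiagonal.1 hgg
    have hdd' := Finset.HasAntidiagonal.mem_antidiagonal.1 hdd
    rw [prod_string (G.corr gg.1 dd.1) (G.corr gg.2 dd.2) _ _
      (fun l => G.string gg.1 dd.1 l) (fun l => G.string gg.2 dd.2 l) (G.gsymm _ _)]
    congr 1
    · congr 1
      by_cases h : gg.1 = 0 ∧ dd.1 = 0
      · have h2 : gg.2 = g := by omega
        have h3 : dd.2 = d := by rw [← hdd', h.2, zero_add]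
        have h4 : gg = (0, g) ∧ dd = (0, d) := ⟨Prod.ext h.1 h2, Prod.ext h.2 h3⟩
        rw [if_pos h4]
        simp only [h, and_self, if_true, h2, h3]
      · have h4 : ¬ (gg = (0, g) ∧ dd = (0, d)) := by
          rintro ⟨rfl, rfl⟩
          exact h ⟨rfl, rfl⟩
        rw [if_neg h4]
        simp only [h, if_false, zero_mul]
        exact splitSum_zero _
    · by_cases h : gg.2 = 0 ∧ dd.2 = 0
      · have h2 : gg.1 = g := by omega
        have h3 : dd.1 = d := by rw [← hdd', h.2, add_zero]
        have h4 : gg = (g, 0) ∧ dd = (d, 0) := ⟨Prod.ext h2 h.1, Prod.ext h3 h.2⟩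
        rw [if_pos h4]
        simp only [h, and_self, if_true, h2, h3]
      · have h4 : ¬ (gg = (g, 0) ∧ dd = (d, 0)) := by
          rintro ⟨rfl, rfl⟩
          exact h ⟨rfl, rfl⟩
        rw [if_neg h4]
        simp only [h, if_false, mul_zero]
        exact splitSum_zero _
  rw [hA, Finset.sum_congr rfl fun gg hgg => Finset.sum_congr rfl fun dd hdd => hB gg hgg dd hdd]
  simp only [Finset.sum_add_distrib, derive_sum low_even, low_even.sum]
  have hs1 : ∀ c : ℂ, ∑ gg ∈ Finset.HasAntidiagonal.antidiagonal g,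
      ∑ dd ∈ Finset.HasAntidiagonal.antidiagonal d,
        (if gg = (0, g) ∧ dd = (0, d) then c else 0) = c := by
    intro c
    rw [Finset.sum_eq_single (0, g), Finset.sum_eq_single (0, d)]
    · simp
    · intro b _ hb; simp [hb]
    · intro h
      exact absurd (Finset.HasAntidiagonal.mem_antidiagonal.2 (zero_add d)) h
    · intro b _ hb; simp [hb]
    · intro h
      exact absurd (Finset.HasAntidiagonal.mem_antidiagonal.2 (zero_add g)) h
  have hs2 : ∀ c : ℂ, ∑ gg ∈ Finset.HasAntidiagonal.antidiagonal g,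
      ∑ dd ∈ Finset.HasAntidiagonal.antidiagonal d,
        (if gg = (g, 0) ∧ dd = (d, 0) then c else 0) = c := by
    intro c
    rw [Finset.sum_eq_single (g, 0), Finset.sum_eq_single (d, 0)]
    · simp
    · intro b _ hb; simp [hb]
    · intro h
      exact absurd (Finset.HasAntidiagonal.mem_antidiagonal.2 (add_zero d)) h
    · intro b _ hb; simp [hb]
    · intro h
      exact absurd (Finset.HasAntidiagonal.mem_antidiagonal.2 (add_zero g)) h
  rw [hs1, hs2]
  ring

theorem derive_of_length_ne_zero {T} (hT : EvenOp X T) (F : List X.Ins → ℂ)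
    (hF : ∀ x l, F (x :: l) = 0) (l : List X.Ins) : X.derive T F l = 0 := by
  cases l with
  | nil => exact derive_nil _ _
  | cons x l =>
    rw [derive_cons]
    simp only [hF]
    rw [hT.zero, derive_zero hT, add_zero]

/-- The string equation for the Virasoro coefficients:
`[L_{-1}, L_k] = -(k+1) L_{k-1}` in coefficient form. -/
theorem virasoro_string (K g : ℕ) (hg : g ≠ 0) (d : B) (l : List X.Ins) :
    G.virasoro (K + 1) g d ((0, X.one) :: l) =
      (K + 1) * G.virasoro K g d l + X.derive X.low (G.virasoro (K + 1) g d) l := by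
  have hg0 : ∀ e : ℂ, (if g = 0 ∧ d = 0 then e else 0) = 0 := fun e =>
    if_neg fun h => hg h.1
  have hstr : ∀ l, G.corr g d ((0, X.one) :: l) = X.derive X.low (G.corr g d) l := by
    intro l; rw [G.string, hg0, add_zero]
  -- first term
  have hT1 : X.vir (K + 1) (1, X.one) (fun y => G.corr g d (y :: (0, X.one) :: l)) =
      X.vir (K + 1) (0, X.one) (fun y => G.corr g d (y :: l)) +
      (K + 1) * X.vir K (1, X.one) (fun y => G.corr g d (y :: l)) +
      X.derive X.low (fun l' => X.vir (K + 1) (1, X.one) (fun y => G.corr g d (y :: l'))) l := by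
    have h1 : ∀ y, G.corr g d (y :: (0, X.one) :: l) =
        X.low y (fun y' => G.corr g d (y' :: l)) +
          X.derive X.low (fun l' => G.corr g d (y :: l')) l := by
      intro y
      rw [(G.gsymm g d).swap_head, par_one, mul_zero, pow_zero, one_mul, hstr, derive_cons]
    simp only [h1]
    rw [(vir_even (K + 1)).add, vir_low, derive_slot (vir_even (K + 1)) low_even]
    rw [low_succ]
    rw [if_neg (Nat.one_ne_zero)]
    ring
  -- second term
  have hT2 : X.derive (X.vir (K + 1)) (G.corr g d) ((0, X.one) :: l) =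
      X.vir (K + 1) (0, X.one) (fun y => G.corr g d (y :: l)) +
      (X.derive X.low (X.derive (X.vir (K + 1)) (G.corr g d)) l +
        ((K + 1) * X.derive (X.vir K) (G.corr g d) l + X.derive (X.Cop K) (G.corr g d) l)) := by
    rw [derive_cons]
    congr 1
    have h1 : (fun l' => G.corr g d ((0, X.one) :: l')) = X.derive X.low (G.corr g d) := by
      funext l'; exact hstr l'
    rw [h1, derive_comm (vir_even (K + 1)) low_even]
    congr 1
    unfold derive
    rw [Finset.mul_sum, ← Finset.sum_add_distrib]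
    refine Finset.sum_congr rfl fun j _ => ?_
    have h2 := vir_low K (l.get j) (fun y => G.corr g d (l.set j y))
    show (X.vir (K + 1) (l.get j) fun y => X.low y fun y => G.corr g d (l.set j y)) -
      (X.low (l.get j) fun y => X.vir (K + 1) y fun y => G.corr g d (l.set j y)) = _
    rw [h2]
    unfold Cop
    ring
  -- quadratic term
  have hT3 : 1 / 2 * X.quad (K + 1) (G.second g d ((0, X.one) :: l)) =
      X.derive X.low (fun l' => 1 / 2 * X.quad (K + 1) (G.second g d l')) l +
      (K + 1) * (1 / 2 * X.quad K (G.second g d l)) +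
      (K + 1) * (if K = 1 ∧ g = 1 ∧ d = 0 ∧ l = [] then X.χ / 16 - X.strμ2 / 4 else 0) -
      X.derive (X.Cop K) (G.corr g d) l := by
    rw [quad_congr (K + 1) (G.second_string g d l), quad_add, quad_add, quad_add, quad_add,
      quad_low, quad_left K (G.gsymm g d), quad_right K (G.gsymm g d), derive_smul low_even,
      derive_quad low_even]
    have h1 : 1 / 2 * X.quad (K + 1) (fun x y =>
        if g = 1 ∧ d = 0 then X.pairing X.η (x :: y :: l) else 0) =
        (K + 1) * (if K = 1 ∧ g = 1 ∧ d = 0 ∧ l = [] then X.χ / 16 - X.strμ2 / 4 else 0) := by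
      by_cases h : g = 1 ∧ d = 0
      · simp only [h, and_self, if_true, true_and]
        exact quad_pair K l
      · have h2 : ¬ (K = 1 ∧ g = 1 ∧ d = 0 ∧ l = []) := fun h' => h ⟨h'.2.1, h'.2.2.1⟩
        rw [if_neg h2]
        simp only [h, if_false]
        simp [quad]
    linear_combination h1
  have hc : X.derive X.low (fun l' => if K + 1 = 1 ∧ g = 1 ∧ d = 0 ∧ l' = [] then
      X.χ / 16 - X.strμ2 / 4 else 0) l = 0 :=
    derive_of_length_ne_zero low_even _ (fun x l => by simp) l
  have hR : X.derive X.low (G.virasoro (K + 1) g d) l =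
      - X.derive X.low (fun l' => X.vir (K + 1) (1, X.one) (fun y => G.corr g d (y :: l'))) l +
      X.derive X.low (X.derive (X.vir (K + 1)) (G.corr g d)) l +
      X.derive X.low (fun l' => 1 / 2 * X.quad (K + 1) (G.second g d l')) l := by
    have h1 : G.virasoro (K + 1) g d = fun l' =>
        - X.vir (K + 1) (1, X.one) (fun y => G.corr g d (y :: l')) +
        X.derive (X.vir (K + 1)) (G.corr g d) l' +
        1 / 2 * X.quad (K + 1) (G.second g d l') +
        (if K + 1 = 1 ∧ g = 1 ∧ d = 0 ∧ l' = [] then X.χ / 16 - X.strμ2 / 4 else 0) := by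
      funext l'
      unfold virasoro
      rw [hg0, add_zero]
    rw [h1, derive_add low_even, derive_add low_even, derive_add low_even, derive_neg low_even,
      hc, add_zero]
  rw [hR]
  unfold virasoro
  rw [hT1, hT2, hT3, hg0, hg0]
  have h5 : ¬ (K + 1 = 1 ∧ g = 1 ∧ d = 0 ∧ (0, X.one) :: l = []) := by simp
  rw [if_neg h5]
  ring

end GWTheory

end Vale.Agent.P269
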