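import Vale.Agent.P269.H727.Jets2

/-! The Libgober-Wood identity for complete intersections as an identity of power series. -/

namespace Vale.Agent.P269.LW

open PowerSeries

/-- `θ = z d/dz` -/
noncomputable def θ (f : PowerSeries ℂ) : PowerSeries ℂ := X * derivative ℂ f

theorem coeff_θ (n : ℕ) (f : PowerSeries ℂ) : coeff n (θ f) = n * coeff n f := by
  unfold θ
  cases n with
  | zero => simp
  | succ n => rw [coeff_succ_X_mul, coeff_derivative]; push_cast; ring

theorem θ_add (f g : PowerSeries ℂ) : θ (f + g) = θ f + θ g := by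
  simp [θ, mul_add]

theorem θ_mul (f g : PowerSeries ℂ) : θ (f * g) = θ f * g + f * θ g := by
  unfold θ
  rw [Derivation.leibniz, smul_eq_mul, smul_eq_mul]
  ring

theorem θ_one : θ 1 = 0 := by
  simp [θ]

theorem θ_natCast (d : ℕ) : θ (d : PowerSeries ℂ) = 0 := by
  have : (d : PowerSeries ℂ) = C (d : ℂ) := by simp
  rw [this, θ, derivative_C, mul_zero]

theorem θ_ofNat (n : ℕ) [n.AtLeastTwo] :
    θ (OfNat.ofNat n : PowerSeries ℂ) = 0 := θ_natCast n

theorem θ_neg (f : PowerSeries ℂ) : θ (-f) = -θ f := by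
  simp [θ]

theorem θ_sub (f g : PowerSeries ℂ) : θ (f - g) = θ f - θ g := by
  rw [sub_eq_add_neg, θ_add, θ_neg, sub_eq_add_neg]

theorem θ_X : θ X = X := by simp [θ]

theorem θ_ui : θ ui = ui * v := by
  have h := congrArg θ u_ui
  rw [θ_mul, θ_sub, θ_one, θ_X] at h
  unfold v
  linear_combination ui * h - (θ ui) * u_ui

theorem θ_v : θ v = v * (1 + v) := by
  have h : θ v = θ X * ui + X * θ ui := by
    conv_lhs => rw [v]
    rw [θ_mul]
  rw [h, θ_X, θ_ui]
  unfold v
  ring

theorem θ_e (d : ℕ) : θ (e d) = - (r d) * (1 + v) * e d := by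
  have h := congrArg θ (e_mul d)
  rw [θ_mul, θ_add, θ_mul, θ_one, θ_natCast, θ_v] at h
  unfold r
  linear_combination (e d) * h - (θ (e d)) * e_mul d

theorem one_sub_r (d : ℕ) : 1 - r d = e d := by
  unfold r
  linear_combination (-1 : PowerSeries ℂ) * e_mul d

theorem one_sub_b (d : ℕ) : 1 - b d = e d * (1 + v) := by
  have := one_sub_r d
  unfold r at this
  unfold b
  linear_combination this

theorem θ_b (d : ℕ) : θ (b d) = b d * (1 - b d) := by
  rw [one_sub_b]
  have h1 : θ (b d) = ((d : PowerSeries ℂ) - 1) * (θ v * e d + v * θ (e d)) := by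
    unfold b
    rw [mul_assoc, θ_mul, θ_sub, θ_natCast, θ_one, θ_mul]
    ring
  rw [h1, θ_v, θ_e]
  have h2 := one_sub_r d
  unfold b
  linear_combination (((d : PowerSeries ℂ) - 1) * v * (1 + v) * e d) * h2

theorem θ_r (d : ℕ) : θ (r d) = r d * (1 - b d) := by
  rw [one_sub_b]
  have h1 : θ (r d) = (d : PowerSeries ℂ) * (θ v * e d + v * θ (e d)) := by
    rw [show r d = (d : PowerSeries ℂ) * (v * e d) by unfold r; ring]
    rw [θ_mul, θ_natCast, θ_mul]
    ring
  rw [h1, θ_v, θ_e]
  have h2 := one_sub_r d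
  have h3 : r d = (d : PowerSeries ℂ) * v * e d := rfl
  linear_combination ((d : PowerSeries ℂ) * v * (1 + v) * e d) * h2 -
    (e d * (1 + v)) * h3

theorem θ_prod_r (deg : List ℕ) :
    θ (deg.map r).prod = (deg.map r).prod * ((deg.length : PowerSeries ℂ) - (deg.map b).sum) := by
  induction deg with
  | nil => simp [θ_one]
  | cons d deg ih =>
    simp only [List.map_cons, List.prod_cons, List.sum_cons, List.length_cons]
    rw [θ_mul, ih, θ_r]
    push_cast
    ring

theorem θ_sum_b (deg : List ℕ) :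
    θ (deg.map b).sum = (deg.map b).sum - (deg.map fun d => b d ^ 2).sum := by
  induction deg with
  | nil => simp [θ]
  | cons d deg ih =>
    simp only [List.map_cons, List.sum_cons]
    rw [θ_add, ih, θ_b]
    ring

theorem sum_T (deg : List ℕ) :
    (deg.map fun d => 3 * b d ^ 2 - 2 * ((d : PowerSeries ℂ) + 1) * v * b d).sum =
      3 * (deg.map fun d => b d ^ 2).sum - 2 * (v * ((deg.sum : ℕ) - (deg.length : ℕ) :
        PowerSeries ℂ) - (deg.map b).sum + v * (deg.map b).sum) := by
  induction deg with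
  | nil => simp
  | cons d deg ih =>
    simp only [List.map_cons, List.sum_cons, List.length_cons]
    rw [ih]
    have h : ((d : PowerSeries ℂ) + 1) * v * b d =
        ((d : PowerSeries ℂ) - 1) * v - b d + v * b d := by
      have h2 := one_sub_r d
      unfold r at h2
      unfold b
      linear_combination (-((d : PowerSeries ℂ) - 1) * v) * h2
    push_cast
    linear_combination (-2 : PowerSeries ℂ) * h

/-- The leading term. -/
noncomputable def Φ (deg : List ℕ) : PowerSeries ℂ := ui ^ 2 * (deg.map r).prod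

theorem θ_Φ (deg : List ℕ) :
    θ (Φ deg) = Φ deg * (2 * v + (deg.length : PowerSeries ℂ) - (deg.map b).sum) := by
  unfold Φ
  rw [θ_mul, θ_prod_r, pow_two, θ_mul, θ_ui]
  ring

/-- The main identity. -/
theorem main_identity (deg : List ℕ) (c δ : PowerSeries ℂ)
    (hc : c = (deg.length : PowerSeries ℂ)) (hδ : δ = (deg.sum : ℕ) - (deg.length : ℕ)) :
    let L := -2 * v + (deg.map b).sum
    let T := 12 * v ^ 2 + (deg.map fun d =>
        3 * b d ^ 2 - 2 * ((d : PowerSeries ℂ) + 1) * v * b d).sum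
    Φ deg * (3 * L ^ 2 + T) + 6 * (θ (Φ deg * L) - c * (Φ deg * L) - Φ deg * L) +
      3 * (θ (θ (Φ deg) - c * Φ deg) - c * (θ (Φ deg) - c * Φ deg)) -
      (θ (Φ deg) - c * Φ deg) - 2 * (θ (v * Φ deg) - c * (v * Φ deg)) -
      2 * (1 - δ) * (v * Φ deg) = 0 := by
  intro L T
  have h1 : θ (Φ deg) - c * Φ deg = -(Φ deg * L) := by
    rw [θ_Φ, hc]
    simp only [L]
    ring
  rw [h1, θ_neg, θ_mul (Φ deg) L, θ_mul v]
  have h2 : θ (Φ deg) = c * Φ deg - Φ deg * L := by linear_combination h1
  rw [h2, θ_v]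
  have h3 : θ L = -2 * (v * (1 + v)) + ((deg.map b).sum - (deg.map fun d => b d ^ 2).sum) := by
    simp only [L]
    rw [θ_add, θ_sum_b, θ_mul, θ_v, θ_neg, θ_ofNat]
    ring
  rw [h3]
  have h4 : T = 12 * v ^ 2 + (3 * (deg.map fun d => b d ^ 2).sum - 2 * (v * δ -
      (deg.map b).sum + v * (deg.map b).sum)) := by
    simp only [T]
    rw [sum_T, hδ]
  rw [h4]
  simp only [L]
  ring

end Vale.Agent.P269.LW
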