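import Vale.Agent.P269.H727.Str2

/-! Graded symmetry and homogeneity of the Virasoro coefficients; the induction. -/

namespace Vale.Agent.P269

namespace Cohomology

variable {X : Cohomology}

theorem GSymm.add {F F' : List X.Ins → ℂ} (h : GSymm F) (h' : GSymm F') :
    GSymm (fun l => F l + F' l) := fun l₁ x y l₂ => by
  show F _ + F' _ = _ * (F _ + F' _)
  rw [h l₁ x y l₂, h' l₁ x y l₂]; ring

theorem GSymm.smul {F : List X.Ins → ℂ} (a : ℂ) (h : GSymm F) :
    GSymm (fun l => a * F l) := fun l₁ x y l₂ => by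
  show a * F _ = _ * (a * F _)
  rw [h l₁ x y l₂]; ring

theorem GSymm.zero : GSymm (fun _ : List X.Ins => (0 : ℂ)) := fun l₁ x y l₂ => by simp

theorem GSymm.sum {ι : Type*} (s : Finset ι) {F : ι → List X.Ins → ℂ}
    (h : ∀ i ∈ s, GSymm (F i)) : GSymm (fun l => ∑ i ∈ s, F i l) := fun l₁ x y l₂ => by
  show ∑ i ∈ s, F i _ = _ * ∑ i ∈ s, F i _
  rw [Finset.mul_sum]
  exact Finset.sum_congr rfl fun i hi => h i hi l₁ x y l₂

theorem GSymm.evenOp {T} (hT : EvenOp X T) (z : X.Ins) {F : X.Ins → List X.Ins → ℂ}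
    (h : ∀ w, GSymm (F w)) : GSymm (fun l => T z (fun w => F w l)) := fun l₁ x y l₂ => by
  show T z (fun w => F w _) = _ * T z (fun w => F w _)
  rw [← hT.smul]
  congr 1
  funext w
  exact h w l₁ x y l₂

theorem GSymm.derive {T} (hT : EvenOp X T) {F : List X.Ins → ℂ} (hF : GSymm F) :
    GSymm (X.derive T F) := by
  intro l₁
  induction l₁ generalizing F with
  | nil =>
    intro x y l₂
    simp only [List.nil_append]
    rw [derive_cons, derive_cons, derive_cons, derive_cons]
    have h1 : T x (fun w => F (w :: y :: l₂)) =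
        (-1) ^ (X.par x * X.par y) * T x (fun w => F (y :: w :: l₂)) := by
      rw [← hT.smul]
      refine hT.congr _ fun w hw => ?_
      rw [hF.swap_head w y, neg_one_pow_mul_congr hw]
    have h2 : T y (fun w => F (x :: w :: l₂)) =
        (-1) ^ (X.par x * X.par y) * T y (fun w => F (w :: x :: l₂)) := by
      rw [← hT.smul]
      refine hT.congr _ fun w hw => ?_
      rw [hF.swap_head x w, mul_comm (X.par x) (X.par w), neg_one_pow_mul_congr hw,
        mul_comm (X.par y)]
    have h3 : X.derive T (fun l' => F (x :: y :: l')) l₂ =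
        (-1) ^ (X.par x * X.par y) * X.derive T (fun l' => F (y :: x :: l')) l₂ := by
      rw [← derive_smul hT]
      congr 1
      funext l'
      rw [hF.swap_head x y]
    rw [h1, h2, h3]
    ring
  | cons z l₁ ih =>
    intro x y l₂
    simp only [List.cons_append]
    rw [derive_cons, derive_cons, ih (hF.cons z), mul_add]
    congr 1
    rw [← hT.smul]
    congr 1
    funext w
    exact hF (w :: l₁) x y l₂

theorem map_par_sum_swap (l₁ : List X.Ins) (x y : X.Ins) (l₂ : List X.Ins) :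
    ((l₁ ++ x :: y :: l₂).map X.par).sum = ((l₁ ++ y :: x :: l₂).map X.par).sum := by
  simp only [List.map_append, List.map_cons, List.sum_append, List.sum_cons]
  ring

theorem GSymm.splitSum {f : List X.Ins → List X.Ins → ℂ}
    (h1 : ∀ l₂, GSymm (fun l₁ => f l₁ l₂)) (h2 : ∀ l₁, GSymm (fun l₂ => f l₁ l₂)) :
    GSymm (X.splitSum f) := by
  intro l₁
  induction l₁ generalizing f with
  | nil =>
    intro x y l₂
    simp only [List.nil_append]
    simp only [splitSum_cons, ← splitSum_add, ← splitSum_smul]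
    congr 1
    funext a b
    have e1 : f (x :: y :: a) b = (-1) ^ (X.par x * X.par y) * f (y :: x :: a) b :=
      (h1 b).swap_head x y a
    have e2 : f a (x :: y :: b) = (-1) ^ (X.par x * X.par y) * f a (y :: x :: b) :=
      (h2 a).swap_head x y b
    simp only [List.map_cons, List.sum_cons, mul_add, pow_add]
    rw [e1, e2]
    have h3 : (-1 : ℂ) ^ (X.par x * X.par y) * (-1) ^ (X.par y * X.par x) = 1 := by
      rw [← pow_add, mul_comm (X.par y)]; exact (Even.add_self _).neg_one_pow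
    have h4 : (-1 : ℂ) ^ (X.par y * X.par x) = (-1) ^ (X.par x * X.par y) := by
      rw [mul_comm]
    rw [h4] at h3
    rw [h4]
    linear_combination (-((-1 : ℂ) ^ (X.par y * (a.map X.par).sum) * f (x :: a) (y :: b))) * h3
  | cons z l₁ ih =>
    intro x y l₂
    simp only [List.cons_append]
    rw [splitSum_cons, splitSum_cons, mul_add]
    rw [ih (fun l₂ => (h1 l₂).cons z) (fun l₁ => h2 (z :: l₁)) x y l₂]
    congr 1
    refine ih (fun l₂ => ?_) (fun l₁ => ((h2 l₁).cons z).smul _) x y l₂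
    intro l₁ x y l₂'
    show _ * f _ _ = _ * (_ * f _ _)
    have h3 : f (l₁ ++ x :: y :: l₂') (z :: l₂) =
        (-1) ^ (X.par x * X.par y) * f (l₁ ++ y :: x :: l₂') (z :: l₂) :=
      h1 (z :: l₂) l₁ x y l₂'
    rw [map_par_sum_swap, h3]
    ring

theorem GSymm.quad (K : ℕ) {Q : List X.Ins → X.Ins → X.Ins → ℂ}
    (h : ∀ x y, GSymm (fun l => Q l x y)) : GSymm (fun l => X.quad K (Q l)) := by
  unfold Cohomology.quad
  refine GSymm.sum _ fun i _ => GSymm.sum _ fun mn _ => GSymm.smul _ (GSymm.sum _ fun a _ =>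
    GSymm.sum _ fun b _ => GSymm.smul _ (GSymm.sum _ fun c _ => GSymm.smul _ (h _ _)))

/-- Twice the weight of an insertion. -/
def wt (X : Cohomology) (x : X.Ins) : ℤ := 2 * x.1 + X.p x.2 + X.q x.2 - 2

/-- Twice the weight of a list. -/
def wts (X : Cohomology) (l : List X.Ins) : ℤ := (l.map X.wt).sum

theorem wts_nil : X.wts [] = 0 := rfl

theorem wts_cons (x : X.Ins) (l : List X.Ins) : X.wts (x :: l) = X.wt x + X.wts l := rfl

theorem wts_append (l₁ l₂ : List X.Ins) : X.wts (l₁ ++ l₂) = X.wts l₁ + X.wts l₂ := by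
  simp [wts]

theorem wts_set (l : List X.Ins) (j : Fin l.length) (y : X.Ins) :
    X.wts (l.set j y) = X.wts l - X.wt (l.get j) + X.wt y := by
  induction l with
  | nil => exact j.elim0
  | cons x l ih =>
    refine Fin.cases ?_ (fun i => ?_) j
    · show X.wts (y :: l) = X.wts (x :: l) - X.wt x + X.wt y
      rw [wts_cons, wts_cons]; ring
    · show X.wts (x :: l.set i y) = X.wts (x :: l) - X.wt (l.get i) + X.wt y
      rw [wts_cons, wts_cons, ih]; ring

theorem vir_ne_zero {K : ℕ} {x : X.Ins} {f : X.Ins → ℂ} (h : X.vir K x f ≠ 0) :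
    ∃ y, f y ≠ 0 ∧ X.wt y = X.wt x + 2 * (K - 1) := by
  unfold vir at h
  obtain ⟨i, -, hi⟩ := Finset.exists_ne_zero_of_sum_ne_zero h
  split_ifs at hi with hlt
  · have h1 := right_ne_zero_of_mul hi
    obtain ⟨b, -, hb⟩ := Finset.exists_ne_zero_of_sum_ne_zero h1
    have h2 := R_pow_deg _ _ _ (left_ne_zero_of_mul hb)
    refine ⟨_, right_ne_zero_of_mul hb, ?_⟩
    unfold wt
    simp only
    rw [h2.1, h2.2]
    have : ((x.1 + K - 1 - i : ℕ) : ℤ) = x.1 + K - 1 - i := by omega
    rw [this]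
    push_cast
    ring
  · exact absurd rfl hi

theorem derive_ne_zero {T : X.Ins → (X.Ins → ℂ) → ℂ} {F : List X.Ins → ℂ} {l : List X.Ins}
    {w : ℤ} (hT : ∀ x f, T x f ≠ 0 → ∃ y, f y ≠ 0 ∧ X.wt y = X.wt x + w)
    (h : X.derive T F l ≠ 0) : ∃ l', F l' ≠ 0 ∧ X.wts l' = X.wts l + w := by
  unfold derive at h
  obtain ⟨j, -, hj⟩ := Finset.exists_ne_zero_of_sum_ne_zero h
  obtain ⟨y, hy, hw⟩ := hT _ _ hj
  refine ⟨_, hy, ?_⟩
  rw [wts_set, hw]
  ring

theorem splitSum_ne_zero {f : List X.Ins → List X.Ins → ℂ} {l : List X.Ins}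
    (h : X.splitSum f l ≠ 0) : ∃ l₁ l₂, f l₁ l₂ ≠ 0 ∧ X.wts l = X.wts l₁ + X.wts l₂ := by
  induction l generalizing f with
  | nil => exact ⟨[], [], h, by simp [wts_nil]⟩
  | cons x l ih =>
    rw [splitSum_cons] at h
    by_cases h1 : X.splitSum (fun l₁ l₂ => f (x :: l₁) l₂) l = 0
    · rw [h1, zero_add] at h
      obtain ⟨l₁, l₂, h2, h3⟩ := ih h
      exact ⟨l₁, x :: l₂, right_ne_zero_of_mul h2, by rw [wts_cons, wts_cons, h3]; ring⟩
    · obtain ⟨l₁, l₂, h2, h3⟩ := ih h1
      exact ⟨x :: l₁, l₂, h2, by rw [wts_cons, wts_cons, h3]; ring⟩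

theorem quad_ne_zero {K : ℕ} {Q : X.Ins → X.Ins → ℂ} (h : X.quad K Q ≠ 0) :
    ∃ x y, Q x y ≠ 0 ∧ X.wt x + X.wt y = 2 * K + 2 * X.D - 8 := by
  unfold quad at h
  obtain ⟨i, hi, h1⟩ := Finset.exists_ne_zero_of_sum_ne_zero h
  obtain ⟨mn, hmn, h2⟩ := Finset.exists_ne_zero_of_sum_ne_zero h1
  obtain ⟨a, -, h3⟩ := Finset.exists_ne_zero_of_sum_ne_zero (right_ne_zero_of_mul h2)
  obtain ⟨b, -, h4⟩ := Finset.exists_ne_zero_of_sum_ne_zero h3
  obtain ⟨c, -, h5⟩ := Finset.exists_ne_zero_of_sum_ne_zero (right_ne_zero_of_mul h4)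
  have h6 := η_inv_deg _ _ (left_ne_zero_of_mul (left_ne_zero_of_mul h4))
  have h7 := R_pow_deg _ _ _ (left_ne_zero_of_mul h5)
  have h8 := Finset.HasAntidiagonal.mem_antidiagonal.1 hmn
  have h9 := Finset.mem_range.1 hi
  refine ⟨_, _, right_ne_zero_of_mul h5, ?_⟩
  unfold wt
  simp only
  omega

end Cohomology

namespace GWTheory

open Cohomology

variable {X : Cohomology} {B : Type} [AddCommMonoid B] [DecidableEq B] [Finset.HasAntidiagonal B]
  (G : GWTheory X B)

/-- `e(g,d) = (1-g)(D-3) + c_1·d`, the virtual dimension of the space of maps without marked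
points. -/
def vdim (g : ℕ) (d : B) : ℤ := (1 - g) * (X.D - 3) + G.c1 d

theorem wts_of_ne_zero {g : ℕ} {d : B} {l : List X.Ins} (h : G.corr g d l ≠ 0) :
    X.wts l = 2 * G.vdim g d := by
  have h1 := G.dim_p g d l h
  have h2 := G.dim_q g d l h
  have h3 : X.wts l = (l.map fun x => (x.1 + X.p x.2 : ℤ)).sum +
      (l.map fun x => (x.1 + X.q x.2 : ℤ)).sum - 2 * l.length := by
    clear h h1 h2
    induction l with
    | nil => simp [wts_nil]
    | cons x l ih =>
      rw [wts_cons, ih, List.map_cons, List.sum_cons, List.map_cons, List.sum_cons,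
        List.length_cons]
      unfold wt
      push_cast
      ring
  rw [h3, h1, h2]
  unfold vdim
  ring

theorem second_ne_zero {g : ℕ} {d : B} {l : List X.Ins} {x y : X.Ins}
    (h : G.second g d l x y ≠ 0) :
    X.wt x + X.wt y + X.wts l = 2 * (G.vdim g d + (X.D - 3)) := by
  unfold second at h
  by_cases h1 : (if g = 0 then 0 else G.corr (g - 1) d (x :: y :: l)) = 0
  · rw [h1, zero_add] at h
    obtain ⟨gg, hgg, h2⟩ := Finset.exists_ne_zero_of_sum_ne_zero h
    obtain ⟨dd, hdd, h3⟩ := Finset.exists_ne_zero_of_sum_ne_zero h2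
    obtain ⟨l₁, l₂, h4, h5⟩ := splitSum_ne_zero h3
    have h6 := G.wts_of_ne_zero (left_ne_zero_of_mul h4)
    have h7 := G.wts_of_ne_zero (right_ne_zero_of_mul h4)
    rw [wts_append, wts_cons, wts_nil] at h6
    rw [wts_cons] at h7
    have h8 := Finset.HasAntidiagonal.mem_antidiagonal.1 hgg
    have h9 := Finset.HasAntidiagonal.mem_antidiagonal.1 hdd
    have h10 : X.wt x + X.wt y + X.wts l = 2 * (G.vdim gg.1 dd.1 + G.vdim gg.2 dd.2) := by
      rw [h5]; linarith
    rw [h10]
    unfold vdim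
    rw [← h8, ← h9, map_add]
    push_cast
    ring
  · split_ifs at h1 with hg
    · exact absurd rfl h1
    · have h2 := G.wts_of_ne_zero h1
      rw [wts_cons, wts_cons] at h2
      rw [show X.wt x + X.wt y + X.wts l = X.wt x + (X.wt y + X.wts l) by ring, h2]
      unfold vdim
      have : ((g - 1 : ℕ) : ℤ) = g - 1 := by omega
      rw [this]
      ring

/-- Homogeneity of the Virasoro coefficients. -/
theorem virasoro_weight {K g : ℕ} (hg : g ≠ 0) (hK : K ≠ 1) {d : B} {l : List X.Ins}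
    (h : G.virasoro K g d l ≠ 0) : X.wts l = 2 * (G.vdim g d - (K - 1)) := by
  unfold virasoro at h
  rw [if_neg (fun h => hg h.1), if_neg (fun h => hK h.1), add_zero, add_zero] at h
  by_cases h1 : X.vir K (1, X.one) (fun y => G.corr g d (y :: l)) = 0
  · by_cases h2 : X.derive (X.vir K) (G.corr g d) l = 0
    · rw [h1, h2, neg_zero, zero_add, zero_add] at h
      obtain ⟨x, y, h3, h4⟩ := quad_ne_zero (right_ne_zero_of_mul h)
      have h5 := G.second_ne_zero h3
      linarith
    · obtain ⟨l', h3, h4⟩ := derive_ne_zero (fun x f => vir_ne_zero) h2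
      have h5 := G.wts_of_ne_zero h3
      linarith
  · obtain ⟨y, h3, h4⟩ := vir_ne_zero h1
    have h5 := G.wts_of_ne_zero h3
    rw [wts_cons, h4] at h5
    have h6 : X.wt (1, X.one) = 0 := by
      unfold wt; simp [X.p_one, X.q_one]
    rw [h6] at h5
    linarith

theorem virasoro_gsymm {K g : ℕ} (hg : g ≠ 0) (hK : K ≠ 1) (d : B) :
    GSymm (G.virasoro K g d) := by
  have h1 : G.virasoro K g d = fun l =>
      (-1) * X.vir K (1, X.one) (fun y => G.corr g d (y :: l)) +
      X.derive (X.vir K) (G.corr g d) l + 1 / 2 * X.quad K (G.second g d l) := by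
    funext l
    unfold virasoro
    rw [if_neg (fun h => hg h.1), if_neg (fun h => hK h.1)]
    ring
  rw [h1]
  refine (GSymm.add (GSymm.smul _ (GSymm.evenOp (vir_even K) _ fun w =>
    (G.gsymm g d).cons w)) (GSymm.derive (vir_even K) (G.gsymm g d))).add
    (GSymm.smul _ (GSymm.quad K fun x y => ?_))
  unfold second
  refine GSymm.add ?_ (GSymm.sum _ fun gg _ => GSymm.sum _ fun dd _ => GSymm.splitSum
    (fun l₂ => ?_) (fun l₁ => ?_))
  · by_cases hg0 : g = 0
    · simp only [hg0, if_true]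
      exact GSymm.zero
    · simp only [hg0, if_false]
      exact ((G.gsymm _ d).cons x).cons y
  · intro l₁ a b l₂'
    show G.corr _ _ _ * _ = _ * (G.corr _ _ _ * _)
    have := G.gsymm gg.1 dd.1 l₁ a b (l₂' ++ [x])
    simp only [List.append_assoc, List.cons_append] at this ⊢
    rw [this]
    ring
  · exact ((G.gsymm gg.2 dd.2).cons y).smul _

end GWTheory

end Vale.Agent.P269
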